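import Vale.Agent.P108.H504.Mirror
import Vale.Agent.P108.Area.Coord

/-!
# P108: leaves of the standard map from suffix (prefix) growth at one point
-/

namespace Vale.Agent.P108.H504

open Set Vale.Agent.P108.Dyn Vale.Agent.P108.Area Vale.Agent.P108.H786

variable {k : ℝ} {p q : ℤ}

lemma abs_FTa_sub_le {k : ℝ} (hk : 0 ≤ k) (t t' : ℝ) :
    |FT.a k t - FT.a k t'| ≤ 40 * k * |t - t'| := by
  unfold FT.a
  have e : (2 + 2 * Real.pi * k * Real.cos (2 * Real.pi * t)) -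
      (2 + 2 * Real.pi * k * Real.cos (2 * Real.pi * t')) =
      2 * Real.pi * k * (Real.cos (2 * Real.pi * t) - Real.cos (2 * Real.pi * t')) := by ring
  have h0 : (0 : ℝ) ≤ 2 * Real.pi * k := by positivity
  have h1 : |Real.cos (2 * Real.pi * t) - Real.cos (2 * Real.pi * t')| ≤
      |2 * Real.pi * t - 2 * Real.pi * t'| := Real.abs_cos_sub_cos_le _ _
  have h2 : |2 * Real.pi * t - 2 * Real.pi * t'| = 2 * Real.pi * |t - t'| := by
    rw [← mul_sub, abs_mul, abs_of_pos (by positivity)]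
  rw [e, abs_mul, abs_of_nonneg h0]
  have hpi : Real.pi * Real.pi ≤ 10 := by
    have := Real.pi_lt_d2
    have := Real.pi_pos
    nlinarith
  calc 2 * Real.pi * k * |Real.cos (2 * Real.pi * t) - Real.cos (2 * Real.pi * t')|
      ≤ 2 * Real.pi * k * (2 * Real.pi * |t - t'|) := by
        rw [← h2]; exact mul_le_mul_of_nonneg_left h1 h0
    _ = 4 * (Real.pi * Real.pi) * (k * |t - t'|) := by ring
    _ ≤ 4 * 10 * (k * |t - t'|) := by gcongr
    _ = 40 * k * |t - t'| := by ring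

/-- the family of orbits with `x_{p-1} = c`, `x_p = s` -/
noncomputable def famL (k : ℝ) (p : ℤ) (c : ℝ) (s : ℝ) (j : ℤ) : ℝ := orb k (pt k p (c, s)) j

lemma fam_famL (k : ℝ) (p q : ℤ) (c : ℝ) : Fam (phi k) (famL k p c) p q c where
  left s := orb_pt_pred k p (c, s)
  start s := orb_pt_self k p (c, s)
  step _ j _ _ := orb_succ k _ j

lemma coe_famL (k : ℝ) (p : ℤ) (c s : ℝ) : coe (FT.a k) (famL k p c) s = ao k (pt k p (c, s)) := rfl

/-- the mirrored family: `x_{q+1} = c`, `x_q = s`, sites reflected -/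
noncomputable def famR (k : ℝ) (q : ℤ) (c : ℝ) (s : ℝ) (j : ℤ) : ℝ :=
  orb k (pt k (q + 1) (s, c)) (-j)

lemma fam_famR (k : ℝ) (p q : ℤ) (c : ℝ) : Fam (phi k) (famR k q c) (-q) (-p) c where
  left s := by
    unfold famR
    rw [show -(-q - 1) = q + 1 by ring]
    exact orb_pt_self k (q + 1) (s, c)
  start s := by
    unfold famR
    rw [neg_neg]
    have := orb_pt_pred k (q + 1) (s, c)
    rwa [add_sub_cancel_right] at this
  step s j _ _ := by
    unfold famR
    have := orb_rec k (pt k (q + 1) (s, c)) (-j)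
    rw [show -(j + 1) = -j - 1 by ring, show -(j - 1) = -j + 1 by ring]
    linarith

lemma coe_famR (k : ℝ) (q : ℤ) (c s : ℝ) :
    coe (FT.a k) (famR k q c) s = fun j => ao k (pt k (q + 1) (s, c)) (-j) := rfl

/-- What is true at a point `z'` of the left leaf of `z`, window `[p, q]`, moving end `q + 1`. -/
structure LeafL (k : ℝ) (z z' : ℝ × ℝ) (p q : ℤ) (κ C ρ : ℝ) : Prop where
  fix : orb k z' (p - 1) = orb k z (p - 1)
  mul_pos : 0 < D (ao k z') p q * D (ao k z) p q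
  dist : |(Real.log |D (ao k z') p q| - Real.log |D (ao k z) p q|)| ≤
    640 * C ^ 2 * k * ρ * κ ^ 2
  le_two : |D (ao k z') p q| ≤ 2 * |D (ao k z) p q|
  two_le : |D (ao k z) p q| ≤ 2 * |D (ao k z') p q|
  suf : Suf (ao k z') p q κ (4 / 3 * C)
  disp : ∀ l, p - 1 ≤ l → l ≤ q + 1 → |orb k z' l - orb k z l| ≤
    4 / 3 * C * κ ^ (q + 1 - l).toNat * |orb k z' (q + 1) - orb k z (q + 1)|
  disp_le : |orb k z' (q + 1) - orb k z (q + 1)| ≤ ρ

/-- Mirror image. -/
structure LeafR (k : ℝ) (z z' : ℝ × ℝ) (p q : ℤ) (κ C ρ : ℝ) : Prop where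
  fix : orb k z' (q + 1) = orb k z (q + 1)
  mul_pos : 0 < D (ao k z') p q * D (ao k z) p q
  dist : |(Real.log |D (ao k z') p q| - Real.log |D (ao k z) p q|)| ≤
    640 * C ^ 2 * k * ρ * κ ^ 2
  le_two : |D (ao k z') p q| ≤ 2 * |D (ao k z) p q|
  two_le : |D (ao k z) p q| ≤ 2 * |D (ao k z') p q|
  pre : Pre (ao k z') p q κ (4 / 3 * C)
  disp : ∀ l, p - 1 ≤ l → l ≤ q + 1 → |orb k z' l - orb k z l| ≤
    4 / 3 * C * κ ^ (l - p + 1).toNat * |orb k z' (p - 1) - orb k z (p - 1)|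
  disp_le : |orb k z' (p - 1) - orb k z (p - 1)| ≤ ρ

lemma le_two_of_log {x y ε : ℝ} (hx : 0 < x) (hy : 0 < y) (h : Real.log x - Real.log y ≤ ε)
    (hε : ε ≤ 1 / 2) : x ≤ 2 * y := by
  have h2 : Real.log x ≤ Real.log y + 1 / 2 := by linarith
  have h3 : x ≤ y * Real.exp (1 / 2) := by
    have h4 := Real.exp_le_exp.2 h2
    rw [Real.exp_add, Real.exp_log hx, Real.exp_log hy] at h4
    exact h4
  have h5 : Real.exp (1 / 2) ≤ 2 := by
    have h6 : Real.exp (1 / 2) ^ 2 ≤ 2 ^ 2 := by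
      rw [← Real.exp_nat_mul]
      have e : ((2 : ℕ) : ℝ) * (1 / 2) = 1 := by norm_num
      rw [e]
      linarith [Real.exp_one_lt_d9]
    exact le_of_sq_le_sq h6 (by norm_num)
  nlinarith

/-- The constants used for the leaves: `κ = k^(-η)`, `η > 1/2`. -/
structure Par (k κ C ρ : ℝ) : Prop where
  hk : 2 ≤ k
  hκ : 0 < κ
  hκ1 : κ ≤ 1
  hC : 1 ≤ C
  hρ : 0 < ρ
  h1 : 16 * k * κ ^ 2 ≤ 1
  h2 : 1280 * C ^ 2 * k * ρ * κ ^ 2 ≤ 1

/-- **Left leaf, full form.** -/
theorem exists_leafL {κ C ρ : ℝ} (P : Par k κ C ρ) (hpq : p ≤ q) {z : ℝ × ℝ}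
    (h : Suf (ao k z) p q κ C) :
    ∃ s1 s2, Tube (FT.a k) (famL k p (orb k z (p - 1))) p q (8 * k) (40 * k) κ C ρ
      (orb k z p) s1 s2 := by
  obtain ⟨hk, hκ, hκ1, hC, hρ, h1, h2⟩ := P
  refine exists_tube (fam_famL k p q _) (fun t => hasDerivAt_phi k t) (fun t => abs_FTa_le hk t)
    (fun t t' => abs_FTa_sub_le (by linarith) t t') (by linarith) hpq hκ hκ1 hC hρ
    (by linarith) (by nlinarith [h2]) ?_
  rw [coe_famL, pt_orb]
  exact h

/-- **Right leaf, full form.** -/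
theorem exists_leafR {κ C ρ : ℝ} (P : Par k κ C ρ) (hpq : p ≤ q) {z : ℝ × ℝ}
    (h : Pre (ao k z) p q κ C) :
    ∃ s1 s2, Tube (FT.a k) (famR k q (orb k z (q + 1))) (-q) (-p) (8 * k) (40 * k) κ C ρ
      (orb k z q) s1 s2 := by
  obtain ⟨hk, hκ, hκ1, hC, hρ, h1, h2⟩ := P
  refine exists_tube (fam_famR k p q _) (fun t => hasDerivAt_phi k t) (fun t => abs_FTa_le hk t)
    (fun t t' => abs_FTa_sub_le (by linarith) t t') (by linarith) (by omega) hκ hκ1 hC hρ
    (by linarith) (by nlinarith [h2]) ?_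
  have e : pt k (q + 1) (orb k z q, orb k z (q + 1)) = z := by
    have := pt_orb k (q + 1) z
    rwa [add_sub_cancel_right] at this
  rw [coe_famR, e, suf_reflect, neg_neg, neg_neg]
  exact h

/-- **Left leaf, pointwise form.** -/
theorem leafL {κ C ρ : ℝ} (P : Par k κ C ρ) (hpq : p ≤ q) {z : ℝ × ℝ}
    (h : Suf (ao k z) p q κ C) {s : ℝ}
    (hs : |s - orb k z p| * |D (ao k z) p q| ≤ ρ / 2) :
    LeafL k z (pt k p (orb k z (p - 1), s)) p q κ C ρ := by
  obtain ⟨s1, s2, T⟩ := exists_leafL P hpq h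
  obtain ⟨hk, hκ, hκ1, hC, hρ, h1, h2⟩ := P
  have e0 : coe (FT.a k) (famL k p (orb k z (p - 1))) (orb k z p) = ao k z := by
    rw [coe_famL, pt_orb]
  have hmem : s ∈ Icc s1 s2 := by
    refine T.mem (fam_famL k p q _) (fun t => hasDerivAt_phi k t) hpq (by nlinarith [h2]) ?_
    rw [e0]; exact hs
  have e1 : ∀ l, famL k p (orb k z (p - 1)) (orb k z p) l = orb k z l := by
    intro l; unfold famL; rw [pt_orb]
  have hp := T.pt s hmem
  have hs0 : orb k z p ∈ Icc s1 s2 := ⟨T.lt1.le, T.lt2.le⟩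
  have hD0 : 0 < |D (ao k z) p q| := abs_pos.2 h.1
  have hD1 : 0 < |D (ao k (pt k p (orb k z (p - 1), s))) p q| := abs_pos.2 hp.sign
  have hd : |(Real.log |D (ao k (pt k p (orb k z (p - 1), s))) p q| -
      Real.log |D (ao k z) p q|)| ≤ 640 * C ^ 2 * k * ρ * κ ^ 2 := by
    have := hp.dist
    rw [e0, coe_famL] at this
    linarith
  have hd' := abs_le.1 hd
  refine ⟨orb_pt_pred k p _, ?_, hd, ?_, ?_, ?_, ?_, ?_⟩
  · have := T.sign s hmem
    rwa [e0, coe_famL] at this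
  · exact le_two_of_log hD1 hD0 hd'.2 (by linarith)
  · exact le_two_of_log hD0 hD1 (by linarith [hd'.1]) (by linarith : 640 * C ^ 2 * k * ρ * κ ^ 2 ≤ 1 / 2)
  · have := hp.suf
    rwa [coe_famL] at this
  · intro l hl1 hl2
    have := T.disp s hmem l hl1 hl2
    rw [e1, e1] at this
    exact this
  · have := T.bij.mapsTo hmem
    simp only [Set.mem_Icc, e1] at this
    rw [abs_le]
    change _ ≤ famL k p (orb k z (p - 1)) s (q + 1) - _ ∧
      famL k p (orb k z (p - 1)) s (q + 1) - _ ≤ _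
    constructor <;> linarith [this.1, this.2]

/-- **Right leaf, pointwise form.** -/
theorem leafR {κ C ρ : ℝ} (P : Par k κ C ρ) (hpq : p ≤ q) {z : ℝ × ℝ}
    (h : Pre (ao k z) p q κ C) {s : ℝ}
    (hs : |s - orb k z q| * |D (ao k z) p q| ≤ ρ / 2) :
    LeafR k z (pt k (q + 1) (s, orb k z (q + 1))) p q κ C ρ := by
  obtain ⟨s1, s2, T⟩ := exists_leafR P hpq h
  obtain ⟨hk, hκ, hκ1, hC, hρ, h1, h2⟩ := P
  have ez : pt k (q + 1) (orb k z q, orb k z (q + 1)) = z := by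
    have := pt_orb k (q + 1) z
    rwa [add_sub_cancel_right] at this
  have e0 : D (coe (FT.a k) (famR k q (orb k z (q + 1))) (orb k z q)) (-q) (-p) =
      D (ao k z) p q := by
    rw [coe_famR, ez, D_reflect, neg_neg, neg_neg]
  have e0' : D (coe (FT.a k) (famR k q (orb k z (q + 1))) s) (-q) (-p) =
      D (ao k (pt k (q + 1) (s, orb k z (q + 1)))) p q := by
    rw [coe_famR, D_reflect, neg_neg, neg_neg]
  have hmem : s ∈ Icc s1 s2 := by
    refine T.mem (fam_famR k p q _) (fun t => hasDerivAt_phi k t) (by omega) (by nlinarith [h2]) ?_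
    rw [e0]; exact hs
  have e1 : ∀ l, famR k q (orb k z (q + 1)) (orb k z q) (-l) = orb k z l := by
    intro l; unfold famR; rw [ez, neg_neg]
  have e1' : ∀ l, famR k q (orb k z (q + 1)) s (-l) =
      orb k (pt k (q + 1) (s, orb k z (q + 1))) l := by
    intro l; unfold famR; rw [neg_neg]
  have hp := T.pt s hmem
  have hD0 : 0 < |D (ao k z) p q| := abs_pos.2 h.1
  have hD1 : 0 < |D (ao k (pt k (q + 1) (s, orb k z (q + 1)))) p q| := by
    have := hp.sign
    rw [e0'] at this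
    exact abs_pos.2 this
  have hd : |(Real.log |D (ao k (pt k (q + 1) (s, orb k z (q + 1)))) p q| -
      Real.log |D (ao k z) p q|)| ≤ 640 * C ^ 2 * k * ρ * κ ^ 2 := by
    have := hp.dist
    rw [e0, e0'] at this
    linarith
  have hd' := abs_le.1 hd
  refine ⟨orb_pt_self k (q + 1) _, ?_, hd, ?_, ?_, ?_, ?_, ?_⟩
  · have := T.sign s hmem
    rwa [e0, e0'] at this
  · exact le_two_of_log hD1 hD0 hd'.2 (by linarith)
  · exact le_two_of_log hD0 hD1 (by linarith [hd'.1]) (by linarith : 640 * C ^ 2 * k * ρ * κ ^ 2 ≤ 1 / 2)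
  · have := hp.suf
    rw [coe_famR, suf_reflect, neg_neg, neg_neg] at this
    exact this
  · intro l hl1 hl2
    have := T.disp s hmem (-l) (by omega) (by omega)
    have e2 : -p + 1 = -(p - 1) := by ring
    have e3 : (-p + 1 - -l).toNat = (l - p + 1).toNat := by congr 1; ring
    rw [e3, e2, e1, e1, e1', e1'] at this
    exact this
  · have := T.bij.mapsTo hmem
    have e2 : -p + 1 = -(p - 1) := by ring
    simp only [Set.mem_Icc, e2, e1, e1'] at this
    rw [abs_le]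
    constructor <;> linarith [this.1, this.2]

/-- change of the determinants of inner windows along a left leaf -/
lemma LeafL.D_sub_le {z z' : ℝ × ℝ} {κ C ρ : ℝ} (h : LeafL k z z' p q κ C ρ)
    (hk : 2 ≤ k) (hκ : 0 ≤ κ) (hκ1 : κ ≤ 1 / 2) (hC : 0 ≤ C) {u v : ℤ} (hu : p - 1 ≤ u)
    (hv : v ≤ q + 1) :
    |D (ao k z') u v - D (ao k z) u v| ≤
      (8 * k) ^ (v - u).toNat * (120 * k * C * ρ * κ ^ (q + 1 - v).toNat) := by
  have hρ : 0 ≤ ρ := (abs_nonneg _).trans h.disp_le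
  have h1 := abs_D_sub_le (a := ao k z) (a' := ao k z') (p := u) (q := v) (M := 8 * k)
    (by linarith) (fun j _ _ => abs_FTa_le hk _) (fun j _ _ => abs_FTa_le hk _)
  refine h1.trans (mul_le_mul_of_nonneg_left ?_ (by positivity))
  have h2 : ∀ l ∈ Finset.Icc u v, |ao k z' l - ao k z l| ≤
      (60 * k * C * ρ * κ ^ (q + 1 - v).toNat) * (1 / 2) ^ (v - l).toNat := by
    intro l hl
    have hl' := Finset.mem_Icc.1 hl
    have h3 : |ao k z' l - ao k z l| ≤ 40 * k * |orb k z' l - orb k z l| :=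
      abs_FTa_sub_le (by linarith) _ _
    have h4 := h.disp l (by omega) (by omega)
    have h5 : κ ^ (q + 1 - l).toNat ≤ κ ^ (q + 1 - v).toNat * (1 / 2) ^ (v - l).toNat := by
      have e : (q + 1 - l).toNat = (q + 1 - v).toNat + (v - l).toNat := by omega
      rw [e, pow_add]
      exact mul_le_mul_of_nonneg_left (pow_le_pow_left₀ hκ hκ1 _) (by positivity)
    calc |ao k z' l - ao k z l| ≤ 40 * k * |orb k z' l - orb k z l| := h3
      _ ≤ 40 * k * (4 / 3 * C * κ ^ (q + 1 - l).toNat *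
          |orb k z' (q + 1) - orb k z (q + 1)|) := by gcongr
      _ ≤ 40 * k * (4 / 3 * C * (κ ^ (q + 1 - v).toNat * (1 / 2) ^ (v - l).toNat) * ρ) := by
          gcongr
          exact h.disp_le
      _ ≤ _ := by
          have : 0 ≤ k * C * ρ * κ ^ (q + 1 - v).toNat * (1 / 2) ^ (v - l).toNat := by positivity
          nlinarith
  refine (Finset.sum_le_sum h2).trans ?_
  rw [← Finset.mul_sum]
  have h6 : ∑ l ∈ Finset.Icc u v, (1 / 2 : ℝ) ^ (v - l).toNat ≤ 2 := by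
    have hinj : Set.InjOn (fun l : ℤ => (v - l).toNat) (Finset.Icc u v) := by
      intro x hx y hy hxy
      have hx' := Finset.mem_Icc.1 hx
      have hy' := Finset.mem_Icc.1 hy
      simp only at hxy
      omega
    have h4 : ∑ l ∈ Finset.Icc u v, (1 / 2 : ℝ) ^ (v - l).toNat =
        ∑ n ∈ (Finset.Icc u v).image (fun l : ℤ => (v - l).toNat), (1 / 2 : ℝ) ^ n :=
      (Finset.sum_image hinj).symm
    rw [h4]
    have h5 : ∑ n ∈ (Finset.Icc u v).image (fun l : ℤ => (v - l).toNat), (1 / 2 : ℝ) ^ n ≤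
        ∑' n : ℕ, (1 / 2 : ℝ) ^ n :=
      Summable.sum_le_tsum _ (fun _ _ => by positivity) summable_geometric_two
    rwa [tsum_geometric_two] at h5
  calc 60 * k * C * ρ * κ ^ (q + 1 - v).toNat * ∑ l ∈ Finset.Icc u v, (1 / 2 : ℝ) ^ (v - l).toNat
      ≤ 60 * k * C * ρ * κ ^ (q + 1 - v).toNat * 2 := by gcongr
    _ = _ := by ring

/-- change of the determinants of inner windows along a right leaf -/
lemma LeafR.D_sub_le {z z' : ℝ × ℝ} {κ C ρ : ℝ} (h : LeafR k z z' p q κ C ρ)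
    (hk : 2 ≤ k) (hκ : 0 ≤ κ) (hκ1 : κ ≤ 1 / 2) (hC : 0 ≤ C) {u v : ℤ} (hu : p - 1 ≤ u)
    (hv : v ≤ q + 1) :
    |D (ao k z') u v - D (ao k z) u v| ≤
      (8 * k) ^ (v - u).toNat * (120 * k * C * ρ * κ ^ (u - p + 1).toNat) := by
  have hρ : 0 ≤ ρ := (abs_nonneg _).trans h.disp_le
  have h1 := abs_D_sub_le (a := ao k z) (a' := ao k z') (p := u) (q := v) (M := 8 * k)
    (by linarith) (fun j _ _ => abs_FTa_le hk _) (fun j _ _ => abs_FTa_le hk _)
  refine h1.trans (mul_le_mul_of_nonneg_left ?_ (by positivity))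
  have h2 : ∀ l ∈ Finset.Icc u v, |ao k z' l - ao k z l| ≤
      (60 * k * C * ρ * κ ^ (u - p + 1).toNat) * (1 / 2) ^ (l - u).toNat := by
    intro l hl
    have hl' := Finset.mem_Icc.1 hl
    have h3 : |ao k z' l - ao k z l| ≤ 40 * k * |orb k z' l - orb k z l| :=
      abs_FTa_sub_le (by linarith) _ _
    have h4 := h.disp l (by omega) (by omega)
    have h5 : κ ^ (l - p + 1).toNat ≤ κ ^ (u - p + 1).toNat * (1 / 2) ^ (l - u).toNat := by
      have e : (l - p + 1).toNat = (u - p + 1).toNat + (l - u).toNat := by omega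
      rw [e, pow_add]
      exact mul_le_mul_of_nonneg_left (pow_le_pow_left₀ hκ hκ1 _) (by positivity)
    calc |ao k z' l - ao k z l| ≤ 40 * k * |orb k z' l - orb k z l| := h3
      _ ≤ 40 * k * (4 / 3 * C * κ ^ (l - p + 1).toNat *
          |orb k z' (p - 1) - orb k z (p - 1)|) := by gcongr
      _ ≤ 40 * k * (4 / 3 * C * (κ ^ (u - p + 1).toNat * (1 / 2) ^ (l - u).toNat) * ρ) := by
          gcongr
          exact h.disp_le
      _ ≤ _ := by
          have : 0 ≤ k * C * ρ * κ ^ (u - p + 1).toNat * (1 / 2) ^ (l - u).toNat := by positivity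
          nlinarith
  refine (Finset.sum_le_sum h2).trans ?_
  rw [← Finset.mul_sum]
  have h6 : ∑ l ∈ Finset.Icc u v, (1 / 2 : ℝ) ^ (l - u).toNat ≤ 2 := by
    have hinj : Set.InjOn (fun l : ℤ => (l - u).toNat) (Finset.Icc u v) := by
      intro x hx y hy hxy
      have hx' := Finset.mem_Icc.1 hx
      have hy' := Finset.mem_Icc.1 hy
      simp only at hxy
      omega
    have h4 : ∑ l ∈ Finset.Icc u v, (1 / 2 : ℝ) ^ (l - u).toNat =
        ∑ n ∈ (Finset.Icc u v).image (fun l : ℤ => (l - u).toNat), (1 / 2 : ℝ) ^ n :=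
      (Finset.sum_image hinj).symm
    rw [h4]
    have h5 : ∑ n ∈ (Finset.Icc u v).image (fun l : ℤ => (l - u).toNat), (1 / 2 : ℝ) ^ n ≤
        ∑' n : ℕ, (1 / 2 : ℝ) ^ n :=
      Summable.sum_le_tsum _ (fun _ _ => by positivity) summable_geometric_two
    rwa [tsum_geometric_two] at h5
  calc 60 * k * C * ρ * κ ^ (u - p + 1).toNat * ∑ l ∈ Finset.Icc u v, (1 / 2 : ℝ) ^ (l - u).toNat
      ≤ 60 * k * C * ρ * κ ^ (u - p + 1).toNat * 2 := by gcongr
    _ = _ := by ring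

end Vale.Agent.P108.H504
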