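import Vale.Agent.P108.H504.Green
import Mathlib.Analysis.Calculus.MeanValue
import Mathlib.Analysis.Calculus.Deriv.MeanValue
import Mathlib.Analysis.Calculus.Darboux
import Mathlib.Analysis.SpecificLimits.Basic
import Mathlib.Topology.Order.IntermediateValue
import Mathlib.Analysis.Complex.ExponentialBounds

/-!
# P108: leaves from suffix growth at one point (the tube lemma)
-/

namespace Vale.Agent.P108.H504

open Set Filter Topology
open Finset (sum_le_sum mul_sum)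

variable {a a' : ℤ → ℝ} {p q i j : ℤ}

/-! ### Trivial bounds -/

/-- Trivial bound of continuants. -/
lemma abs_S_le {M : ℝ} (hM : 1 ≤ M) (p : ℤ) : ∀ n : ℕ,
    (∀ j : ℤ, p ≤ j → j ≤ p - 1 + n → |a j| + 1 ≤ M) → |S a p (n + 1)| ≤ M ^ n
  | 0, _ => by simp
  | 1, h => by
    have h1 := h p le_rfl (by push_cast; omega)
    have : S a p (1 + 1) = a p := by simp [S_succ]
    rw [this, pow_one]
    linarith
  | (n + 2), h => by
    have i1 := abs_S_le hM p (n + 1) fun j h1 h2 => h j h1 (by push_cast at *; omega)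
    have i0 := abs_S_le hM p n fun j h1 h2 => h j h1 (by push_cast at *; omega)
    have h1 := h (p + (n + 1 : ℕ)) (by push_cast; omega) (by push_cast; omega)
    have e : S a p (n + 2 + 1) = a (p + (n + 1 : ℕ)) * S a p (n + 1 + 1) - S a p (n + 1) :=
      S_succ a p (n + 1)
    rw [e]
    have h2 : M ^ n ≤ M ^ (n + 1) := pow_le_pow_right₀ hM (by omega)
    have h0 : 0 ≤ M ^ (n + 1) := by positivity
    calc |a (p + (n + 1 : ℕ)) * S a p (n + 1 + 1) - S a p (n + 1)|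
        ≤ |a (p + (n + 1 : ℕ))| * |S a p (n + 1 + 1)| + |S a p (n + 1)| := by
          rw [← abs_mul]; exact abs_sub _ _
      _ ≤ (M - 1) * M ^ (n + 1) + M ^ (n + 1) :=
          add_le_add (mul_le_mul (by linarith) i1 (abs_nonneg _) (by linarith)) (i0.trans h2)
      _ = M ^ (n + 2) := by ring

lemma abs_D_le {M : ℝ} (hM : 1 ≤ M) (h : ∀ j, p ≤ j → j ≤ q → |a j| + 1 ≤ M) :
    |D a p q| ≤ M ^ (q + 1 - p).toNat := by
  rcases lt_or_ge q (p - 1) with hq | hq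
  · rw [D_of_le a (by omega), abs_zero]
    positivity
  · obtain ⟨n, hn⟩ := Int.le.dest hq
    unfold D
    have e1 : (q - p + 2).toNat = n + 1 := by omega
    have e2 : (q + 1 - p).toNat = n := by omega
    rw [e1, e2]
    exact abs_S_le hM p n fun j h1 h2 => h j h1 (by omega)

/-- The dependence of a continuant on the coefficients, trivial bound. -/
lemma abs_D_sub_le {M : ℝ} (hM : 1 ≤ M) (h : ∀ j, p ≤ j → j ≤ q → |a j| + 1 ≤ M)
    (h' : ∀ j, p ≤ j → j ≤ q → |a' j| + 1 ≤ M) :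
    |D a' p q - D a p q| ≤ M ^ (q - p).toNat * ∑ l ∈ Finset.Icc p q, |a' l - a l| := by
  classical
  rcases lt_or_ge q p with hq | hq
  · have : D a' p q = D a p q := D_congr fun j h1 h2 => by omega
    rw [this, sub_self, abs_zero]
    positivity
  -- telescoping over mixed potentials
  set b : ℤ → ℤ → ℝ := fun m l => if l < m then a' l else a l with hb
  have hbp : D (b p) p q = D a p q := D_congr fun j h1 _ => if_neg (by omega)
  have hbq : D (b (q + 1)) p q = D a' p q := D_congr fun j _ h2 => if_pos (by omega)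
  have hbM : ∀ m j, p ≤ j → j ≤ q → |b m j| + 1 ≤ M := by
    intro m j h1 h2
    simp only [hb]
    split_ifs
    · exact h' j h1 h2
    · exact h j h1 h2
  have hstep : ∀ m ∈ Finset.Icc p q, |D (b (m + 1)) p q - D (b m) p q| ≤
      M ^ (q - p).toNat * |a' m - a m| := by
    intro m hm
    have hm' := Finset.mem_Icc.1 hm
    have hu : D (b (m + 1)) p q = D (b m) p q + (b (m + 1) m - b m m) *
        (D (b m) p (m - 1) * D (b m) (m + 1) q) := by
      refine D_update hm fun l hl hlm => ?_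
      simp only [hb]
      by_cases hl' : l < m
      · rw [if_pos hl', if_pos (by omega)]
      · rw [if_neg hl', if_neg (by omega)]
    have hbm : b (m + 1) m - b m m = a' m - a m := by
      simp only [hb]
      rw [if_pos (by omega), if_neg (by omega)]
    rw [hu, hbm, add_sub_cancel_left, abs_mul, abs_mul, mul_comm]
    refine mul_le_mul_of_nonneg_right ?_ (abs_nonneg _)
    have e1 := abs_D_le (a := b m) (p := p) (q := m - 1) hM fun j h1 h2 =>
      hbM m j h1 (by omega)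
    have e2 := abs_D_le (a := b m) (p := m + 1) (q := q) hM fun j h1 h2 =>
      hbM m j (by omega) h2
    refine (mul_le_mul e1 e2 (abs_nonneg _) (by positivity)).trans_eq ?_
    rw [← pow_add]
    congr 1
    omega
  have htel : ∀ n : ℕ, p + n ≤ q + 1 → |D (b (p + n)) p q - D (b p) p q| ≤
      M ^ (q - p).toNat * ∑ l ∈ Finset.Ico p (p + n), |a' l - a l| := by
    intro n
    induction n with
    | zero => intro _; simp
    | succ n ih =>
      intro hn
      have i1 := ih (by push_cast at hn; omega)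
      have i2 := hstep (p + n) (Finset.mem_Icc.2 ⟨by omega, by push_cast at hn; omega⟩)
      have e : p + ((n + 1 : ℕ) : ℤ) = p + n + 1 := by push_cast; ring
      rw [e]
      have e2 : Finset.Ico p (p + n + 1) = insert (p + n : ℤ) (Finset.Ico p (p + n)) := by
        ext l; simp only [Finset.mem_Ico, Finset.mem_insert]; omega
      rw [e2, Finset.sum_insert (by simp), mul_add]
      calc |D (b (p + n + 1)) p q - D (b p) p q|
          = |(D (b (p + n + 1)) p q - D (b (p + n)) p q) +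
              (D (b (p + n)) p q - D (b p) p q)| := by ring_nf
        _ ≤ _ := (abs_add_le _ _).trans (add_le_add i2 i1)
  have h1 := htel (q + 1 - p).toNat (by omega)
  have e1 : p + ((q + 1 - p).toNat : ℤ) = q + 1 := by omega
  rw [e1, hbq, hbp] at h1
  have e2 : Finset.Ico p (q + 1) = Finset.Icc p q := by
    ext l; simp only [Finset.mem_Ico, Finset.mem_Icc]; omega
  rwa [e2] at h1

/-! ### Suffix growth -/

/-- Suffix growth on `[p, q]` : `|D p (m-1)| ≤ C κ^(q+1-m) |D p q|`. -/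
def Suf (a : ℤ → ℝ) (p q : ℤ) (κ C : ℝ) : Prop :=
  D a p q ≠ 0 ∧ ∀ m, p ≤ m → m ≤ q + 1 →
    |D a p (m - 1)| ≤ C * κ ^ (q + 1 - m).toNat * |D a p q|

/-- The majorant of the Green function. -/
noncomputable def Gam (M κ C : ℝ) (q j i : ℤ) : ℝ :=
  C * (M ^ (q - max j i).toNat * κ ^ (q + 1 - min j i).toNat)

lemma Gam_symm (M κ C : ℝ) (q j i : ℤ) : Gam M κ C q j i = Gam M κ C q i j := by
  unfold Gam; rw [max_comm, min_comm]

lemma Gam_nonneg {M κ C : ℝ} (hM : 0 ≤ M) (hκ : 0 ≤ κ) (hC : 0 ≤ C) : 0 ≤ Gam M κ C q j i := by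
  unfold Gam; positivity

lemma Suf.green {κ C M : ℝ} (h : Suf a p q κ C) (hM : 1 ≤ M)
    (ha : ∀ j, p ≤ j → j ≤ q → |a j| + 1 ≤ M) (hκ : 0 ≤ κ) (hC : 0 ≤ C)
    (hj : j ∈ Finset.Icc p q) (hi : i ∈ Finset.Icc p q) :
    |G a p q j i| ≤ Gam M κ C q j i := by
  have key : ∀ j i, j ∈ Finset.Icc p q → i ∈ Finset.Icc p q → j ≤ i →
      |G a p q j i| ≤ Gam M κ C q j i := by
    intro j i hj hi hji
    have hj' := Finset.mem_Icc.1 hj
    have hi' := Finset.mem_Icc.1 hi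
    rw [G_of_le a p q hji, abs_div, abs_mul, div_le_iff₀ (abs_pos.2 h.1)]
    unfold Gam
    rw [max_eq_right hji, min_eq_left hji]
    have e1 := h.2 j hj'.1 (by omega)
    have e2 := abs_D_le (a := a) (p := i + 1) (q := q) hM fun l h1 h2 => ha l (by omega) h2
    have e3 : (q + 1 - (i + 1)).toNat = (q - i).toNat := by congr 1; ring
    rw [e3] at e2
    calc |D a p (j - 1)| * |D a (i + 1) q|
        ≤ (C * κ ^ (q + 1 - j).toNat * |D a p q|) * M ^ (q - i).toNat :=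
          mul_le_mul e1 e2 (abs_nonneg _) (by positivity)
      _ = _ := by ring
  rcases le_total j i with hji | hji
  · exact key j i hj hi hji
  · rw [G_symm, Gam_symm]
    exact key i j hi hj hji

lemma Gam_comp {κ C M : ℝ} (hM : 1 ≤ M) (hκ : 0 ≤ κ) (hκ1 : κ ≤ 1) (hC : 0 ≤ C) (q j l i : ℤ) :
    Gam M κ C q j l * Gam M κ C q l i ≤ Gam M κ C q l l * Gam M κ C q j i := by
  unfold Gam
  set u : ℤ → ℝ := fun l => M ^ (q - l).toNat with hu
  set v : ℤ → ℝ := fun l => κ ^ (q + 1 - l).toNat with hv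
  have hua : Antitone u := fun x y hxy => pow_le_pow_right₀ hM (by omega)
  have hvm : Monotone v := fun x y hxy => pow_le_pow_of_le_one hκ hκ1 (by omega)
  have hu0 : ∀ l, 0 ≤ u l := fun l => by simp only [hu]; positivity
  have hv0 : ∀ l, 0 ≤ v l := fun l => by simp only [hv]; positivity
  have h1 : u (max j l) * u (max l i) ≤ u l * u (max j i) := by
    rcases le_total j i with h | h
    · rw [max_eq_right h]
      exact mul_le_mul (hua (le_max_right _ _)) (hua (le_max_right _ _)) (hu0 _) (hu0 _)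
    · rw [max_eq_left h, mul_comm]
      exact mul_le_mul (hua (le_max_left _ _)) (hua (le_max_left _ _)) (hu0 _) (hu0 _)
  have h2 : v (min j l) * v (min l i) ≤ v l * v (min j i) := by
    rcases le_total j i with h | h
    · rw [min_eq_left h, mul_comm]
      exact mul_le_mul (hvm (min_le_left _ _)) (hvm (min_le_left _ _)) (hv0 _) (hv0 _)
    · rw [min_eq_right h]
      exact mul_le_mul (hvm (min_le_right _ _)) (hvm (min_le_right _ _)) (hv0 _) (hv0 _)
  have h3 := mul_le_mul h1 h2 (mul_nonneg (hv0 _) (hv0 _)) (mul_nonneg (hu0 _) (hu0 _))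
  have h4 := mul_le_mul_of_nonneg_left h3 (mul_nonneg hC hC)
  calc C * (M ^ (q - max j l).toNat * κ ^ (q + 1 - min j l).toNat) *
        (C * (M ^ (q - max l i).toNat * κ ^ (q + 1 - min l i).toNat))
      = C * C * (u (max j l) * u (max l i) * (v (min j l) * v (min l i))) := by
        simp only [hu, hv]; ring
    _ ≤ C * C * (u l * u (max j i) * (v l * v (min j i))) := h4
    _ = _ := by
        simp only [hu, hv, max_self, min_self]; ring

/-- the permitted displacement at the site `l` -/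
noncomputable def mm (κ C ρ : ℝ) (q l : ℤ) : ℝ := 2 * C * ρ * κ ^ (q + 1 - l).toNat

lemma sum_diag_le {κ C M L ρ : ℝ} (hM : 1 ≤ M)
    (hL : 0 ≤ L) (hρ : 0 ≤ ρ) (hMκ : M * κ ^ 2 ≤ 1 / 2) (p q : ℤ) :
    ∑ l ∈ Finset.Icc p q, Gam M κ C q l l * (L * mm κ C ρ q l) ≤ 4 * C ^ 2 * L * ρ * κ ^ 2 := by
  have h1 : ∀ l ∈ Finset.Icc p q, Gam M κ C q l l * (L * mm κ C ρ q l) =
      (2 * C ^ 2 * L * ρ * κ ^ 2) * (M * κ ^ 2) ^ (q - l).toNat := by
    intro l hl
    have hl' := Finset.mem_Icc.1 hl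
    unfold Gam mm
    rw [max_self, min_self]
    have e : (q + 1 - l).toNat = (q - l).toNat + 1 := by omega
    rw [e, mul_pow, ← pow_mul]
    ring
  rw [Finset.sum_congr rfl h1, ← mul_sum]
  have h2 : ∑ l ∈ Finset.Icc p q, (M * κ ^ 2) ^ (q - l).toNat ≤ 2 := by
    have h3 : ∑ l ∈ Finset.Icc p q, (M * κ ^ 2) ^ (q - l).toNat ≤
        ∑ l ∈ Finset.Icc p q, (1 / 2 : ℝ) ^ (q - l).toNat :=
      sum_le_sum fun l _ => pow_le_pow_left₀ (by positivity) hMκ _
    refine h3.trans ?_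
    have hinj : Set.InjOn (fun l : ℤ => (q - l).toNat) (Finset.Icc p q) := by
      intro x hx y hy hxy
      have hx' := Finset.mem_Icc.1 hx
      have hy' := Finset.mem_Icc.1 hy
      simp only at hxy
      omega
    have h4 : ∑ l ∈ Finset.Icc p q, (1 / 2 : ℝ) ^ (q - l).toNat =
        ∑ n ∈ (Finset.Icc p q).image (fun l : ℤ => (q - l).toNat), (1 / 2 : ℝ) ^ n :=
      (Finset.sum_image hinj).symm
    rw [h4]
    have h5 : ∑ n ∈ (Finset.Icc p q).image (fun l : ℤ => (q - l).toNat), (1 / 2 : ℝ) ^ n ≤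
        ∑' n : ℕ, (1 / 2 : ℝ) ^ n :=
      Summable.sum_le_tsum _ (fun _ _ => by positivity) summable_geometric_two
    rwa [tsum_geometric_two] at h5
  calc 2 * C ^ 2 * L * ρ * κ ^ 2 * ∑ l ∈ Finset.Icc p q, (M * κ ^ 2) ^ (q - l).toNat
      ≤ 2 * C ^ 2 * L * ρ * κ ^ 2 * 2 := mul_le_mul_of_nonneg_left h2 (by positivity)
    _ = _ := by ring

/-- Suffix growth gives the domination of the Green function. -/
lemma Suf.dom {κ C M L ρ : ℝ} (h : Suf a p q κ C) (hM : 1 ≤ M)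
    (ha : ∀ j, p ≤ j → j ≤ q → |a j| + 1 ≤ M) (hκ : 0 ≤ κ) (hκ1 : κ ≤ 1) (hC : 0 ≤ C)
    (hL : 0 ≤ L) (hρ : 0 ≤ ρ) (hMκ : M * κ ^ 2 ≤ 1 / 2) :
    Dom a p q (Gam M κ C q) (fun l => L * mm κ C ρ q l) (4 * C ^ 2 * L * ρ * κ ^ 2) := by
  refine ⟨fun j hj i hi => h.green hM ha hκ hC hj hi, fun j hj i hi => ?_⟩
  have hmm : ∀ l, 0 ≤ L * mm κ C ρ q l := fun l => by unfold mm; positivity
  calc ∑ l ∈ Finset.Icc p q, Gam M κ C q j l * (L * mm κ C ρ q l) * Gam M κ C q l i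
      ≤ ∑ l ∈ Finset.Icc p q, Gam M κ C q l l * (L * mm κ C ρ q l) * Gam M κ C q j i := by
        refine sum_le_sum fun l _ => ?_
        have := mul_le_mul_of_nonneg_right (Gam_comp hM hκ hκ1 hC q j l i) (hmm l)
        nlinarith [this]
    _ = (∑ l ∈ Finset.Icc p q, Gam M κ C q l l * (L * mm κ C ρ q l)) * Gam M κ C q j i := by
        rw [Finset.sum_mul]
    _ ≤ _ := mul_le_mul_of_nonneg_right (sum_diag_le hM hL hρ hMκ p q)
        (Gam_nonneg (by linarith) hκ hC)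

/-! ### Families of orbits with a fixed end -/

/-- A family of orbit segments `x s (p-1) = c`, `x s p = s`. -/
structure Fam (φ : ℝ → ℝ) (x : ℝ → ℤ → ℝ) (p q : ℤ) (c : ℝ) : Prop where
  left : ∀ s, x s (p - 1) = c
  start : ∀ s, x s p = s
  step : ∀ s j, p ≤ j → j ≤ q → x s (j + 1) = φ (x s j) - x s (j - 1)

lemma Fam.mono {φ : ℝ → ℝ} {x : ℝ → ℤ → ℝ} {c : ℝ} (h : Fam φ x p q c) {q' : ℤ} (hq : q' ≤ q) :
    Fam φ x p q' c := ⟨h.left, h.start, fun s j h1 h2 => h.step s j h1 (h2.trans hq)⟩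

/-- the coefficients along the family -/
def coe (φ' : ℝ → ℝ) (x : ℝ → ℤ → ℝ) (s : ℝ) : ℤ → ℝ := fun l => φ' (x s l)

lemma Fam.hasDerivAt {φ φ' : ℝ → ℝ} {x : ℝ → ℤ → ℝ} {c : ℝ} (h : Fam φ x p q c)
    (hφ : ∀ t, HasDerivAt φ (φ' t) t) (s : ℝ) : ∀ n : ℕ, p - 1 + n ≤ q + 1 →
    HasDerivAt (fun s => x s (p - 1 + n)) (D (coe φ' x s) p (p - 1 + n - 1)) s
  | 0, _ => by
    have e1 : D (coe φ' x s) p (p - 1 + ((0 : ℕ) : ℤ) - 1) = 0 := D_of_le _ (by simp; omega)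
    have e2 : (fun s => x s (p - 1 + ((0 : ℕ) : ℤ))) = fun _ => c := by
      funext s; simpa using h.left s
    rw [e1, e2]
    exact hasDerivAt_const s c
  | 1, _ => by
    have e1 : D (coe φ' x s) p (p - 1 + ((1 : ℕ) : ℤ) - 1) = 1 := by
      have : p - 1 + ((1 : ℕ) : ℤ) - 1 = p - 1 := by push_cast; ring
      rw [this, D_empty]
    have e2 : (fun s => x s (p - 1 + ((1 : ℕ) : ℤ))) = fun s => s := by
      funext s
      have : p - 1 + ((1 : ℕ) : ℤ) = p := by push_cast; ring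
      rw [this]; exact h.start s
    rw [e1, e2]
    exact hasDerivAt_id s
  | (n + 2), hn => by
    have i1 := Fam.hasDerivAt h hφ s (n + 1) (by push_cast at *; omega)
    have i0 := Fam.hasDerivAt h hφ s n (by push_cast at *; omega)
    have e1 : p - 1 + ((n + 1 : ℕ) : ℤ) = p + n := by push_cast; ring
    have e2 : p - 1 + ((n + 2 : ℕ) : ℤ) = p + n + 1 := by push_cast; ring
    have e3 : p - 1 + (n : ℤ) = p + n - 1 := by ring
    rw [e1] at i1
    rw [e3] at i0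
    rw [e2]
    have e4 : (fun s => x s (p + n + 1)) = fun s => φ (x s (p + n)) - x s (p + n - 1) := by
      funext s
      exact h.step s (p + n) (by omega) (by push_cast at hn; omega)
    rw [e4]
    have h1 := (hφ (x s (p + n))).comp s i1
    refine (h1.sub i0).congr_deriv ?_
    have h2 := D_right (coe φ' x s) (p := p) (q := p + n) (by omega)
    have e5 : p + (n : ℤ) + 1 - 1 = p + n := by ring
    have e6 : p + (n : ℤ) - 1 - 1 = p + n - 2 := by ring
    rw [e5, e6, h2]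
    rfl

lemma Fam.hasDerivAt' {φ φ' : ℝ → ℝ} {x : ℝ → ℤ → ℝ} {c : ℝ} (h : Fam φ x p q c)
    (hφ : ∀ t, HasDerivAt φ (φ' t) t) (s : ℝ) (h1 : p - 1 ≤ j) (h2 : j ≤ q + 1) :
    HasDerivAt (fun s => x s j) (D (coe φ' x s) p (j - 1)) s := by
  obtain ⟨n, rfl⟩ := Int.le.dest h1
  exact h.hasDerivAt hφ s n h2

/-- Escape lemma. -/
lemma escape {Λ : Finset ℤ} {g : ℤ → ℝ → ℝ} {X : ℝ → ℝ} {m : ℤ → ℝ} {T ρ : ℝ}
    (hg : ∀ l ∈ Λ, Continuous (g l)) (hX : Continuous X) (g0 : ∀ l ∈ Λ, g l 0 = 0) (X0 : X 0 = 0)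
    (hm : ∀ l ∈ Λ, 0 < m l) (hT : 0 ≤ T) (hρ : 0 < ρ) (hesc : ∃ l ∈ Λ, m l ≤ |g l T|)
    (H : ∀ t, 0 ≤ t → (∀ t', 0 ≤ t' → t' ≤ t → ∀ l ∈ Λ, |g l t'| ≤ m l) →
      ∀ l ∈ Λ, |g l t| * (3 / 2 * ρ) ≤ m l * |X t|) :
    ∃ t1, 0 < t1 ∧ |X t1| = ρ ∧ ∀ t', 0 ≤ t' → t' ≤ t1 → ∀ l ∈ Λ, |g l t'| ≤ m l := by
  set B : Set ℝ := ⋃ l ∈ Λ, {t | t ∈ Icc 0 T ∧ m l ≤ |g l t|} with hB
  have hBc : IsCompact B := by
    refine Λ.finite_toSet.isCompact_biUnion fun l hl => ?_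
    have : {t | t ∈ Icc 0 T ∧ m l ≤ |g l t|} = Icc 0 T ∩ {t | m l ≤ |g l t|} := rfl
    rw [this]
    exact isCompact_Icc.inter_right (isClosed_le continuous_const (hg l hl).abs)
  have hBne : B.Nonempty := by
    obtain ⟨l, hl, h⟩ := hesc
    exact ⟨T, mem_biUnion hl ⟨⟨hT, le_rfl⟩, h⟩⟩
  obtain ⟨t, ht, hmin⟩ := hBc.exists_isLeast hBne
  obtain ⟨l, hl, ⟨ht0, htT⟩, hlt⟩ := mem_iUnion₂.1 ht
  have hlt' : ∀ t' , 0 ≤ t' → t' < t → ∀ l ∈ Λ, |g l t'| < m l := by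
    intro t' h0 h1 l' hl'
    by_contra hcon
    have : t' ∈ B := mem_biUnion hl' ⟨⟨h0, h1.le.trans htT⟩, not_lt.1 hcon⟩
    exact absurd (hmin this) (not_le.2 h1)
  have htpos : 0 < t := by
    rcases eq_or_lt_of_le ht0 with h | h
    · exfalso
      rw [← h, g0 l hl, abs_zero] at hlt
      exact absurd (hm l hl) (not_lt.2 hlt)
    · exact h
  have hle : ∀ t' , 0 ≤ t' → t' ≤ t → ∀ l ∈ Λ, |g l t'| ≤ m l := by
    intro t' h0 h1 l' hl'
    rcases eq_or_lt_of_le h1 with h | h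
    · subst h
      have hcl : t' ∈ closure (Ico 0 t') := by
        rw [closure_Ico htpos.ne]
        exact ⟨h0, le_rfl⟩
      have hsub : Ico 0 t' ⊆ {s | |g l' s| ≤ m l'} := fun s hs => (hlt' s hs.1 hs.2 l' hl').le
      have hcl2 : IsClosed {s | |g l' s| ≤ m l'} := isClosed_le (hg l' hl').abs continuous_const
      exact closure_minimal hsub hcl2 hcl
    · exact (hlt' t' h0 h l' hl').le
  have h1 := H t ht0 hle l hl
  have h2 : ρ ≤ |X t| := by
    have h3 : m l * (3 / 2 * ρ) ≤ m l * |X t| :=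
      (mul_le_mul_of_nonneg_right hlt (by positivity)).trans h1
    have h4 : 3 / 2 * ρ ≤ |X t| := le_of_mul_le_mul_left h3 (hm l hl)
    linarith
  have h5 : ρ ∈ (fun t => |X t|) '' Icc 0 t := by
    refine intermediate_value_Icc ht0 hX.abs.continuousOn ⟨?_, h2⟩
    simp only [X0, abs_zero]
    exact hρ.le
  obtain ⟨t1, ⟨h6, h7⟩, h8⟩ := h5
  refine ⟨t1, ?_, h8, fun t' h9 h10 => hle t' h9 (h10.trans h7)⟩
  rcases eq_or_lt_of_le h6 with h | h
  · exfalso
    rw [← h] at h8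
    simp only [X0, abs_zero] at h8
    exact hρ.ne h8
  · exact h

/-! ### The tube lemma -/

/-- The data of a point in the tube around the orbit `s0`. -/
structure TubePt (φ' : ℝ → ℝ) (x : ℝ → ℤ → ℝ) (p q : ℤ) (M L κ C ρ s0 s : ℝ) : Prop where
  sign : D (coe φ' x s) p q ≠ 0
  green : ∀ j ∈ Finset.Icc p q, ∀ i ∈ Finset.Icc p q,
    |G (coe φ' x s) p q j i| ≤ 4 / 3 * Gam M κ C q j i
  dist : |(Real.log |D (coe φ' x s) p q| - Real.log |D (coe φ' x s0) p q|)| ≤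
    16 * C ^ 2 * L * ρ * κ ^ 2
  suf : Suf (coe φ' x s) p q κ (4 / 3 * C)

lemma tubePt {φ' : ℝ → ℝ} {x : ℝ → ℤ → ℝ} {M L κ C ρ s0 s : ℝ}
    (hM : ∀ t, |φ' t| + 1 ≤ M) (hL : ∀ t t', |φ' t - φ' t'| ≤ L * |t - t'|) (hL0 : 0 ≤ L)
    (hpq : p ≤ q) (hκ : 0 ≤ κ) (hκ1 : κ ≤ 1) (hC : 1 ≤ C) (hρ : 0 ≤ ρ)
    (hMκ : M * κ ^ 2 ≤ 1 / 2) (hθ : 4 * C ^ 2 * L * ρ * κ ^ 2 ≤ 1 / 4)
    (h0 : Suf (coe φ' x s0) p q κ C)
    (hs : ∀ l ∈ Finset.Icc p q, |x s l - x s0 l| ≤ mm κ C ρ q l) :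
    TubePt φ' x p q M L κ C ρ s0 s := by
  have hM1 : 1 ≤ M := by linarith [hM 0, abs_nonneg (φ' 0)]
  have hC0 : 0 ≤ C := by linarith
  have hθ0 : 0 ≤ 4 * C ^ 2 * L * ρ * κ ^ 2 := by positivity
  set θ := 4 * C ^ 2 * L * ρ * κ ^ 2 with hθd
  have hdom := h0.dom (L := L) (ρ := ρ) hM1 (fun j _ _ => hM _) hκ hκ1 hC0 hL0 hρ hMκ
  have hmm : ∀ l, 0 ≤ L * mm κ C ρ q l := fun l => by unfold mm; positivity
  have hδ : ∀ l ∈ Finset.Icc p q, |coe φ' x s l - coe φ' x s0 l| ≤ L * mm κ C ρ q l :=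
    fun l hl => (hL _ _).trans (mul_le_mul_of_nonneg_left (hs l hl) hL0)
  have hinv : (1 - θ)⁻¹ ≤ 4 / 3 := by
    rw [inv_le_comm₀ (by linarith) (by norm_num)]
    norm_num
    linarith
  have hdiag := sum_diag_le (κ := κ) (C := C) (ρ := ρ) hM1 hL0 hρ hMκ p q
  obtain ⟨h1, h2⟩ := perturb h0.1 hpq hdom hθ0 (by linarith) hδ
  have hG : ∀ j ∈ Finset.Icc p q, ∀ i ∈ Finset.Icc p q,
      |G (coe φ' x s) p q j i| ≤ 4 / 3 * Gam M κ C q j i := fun j hj i hi =>
    (h2 j hj i hi).trans (mul_le_mul_of_nonneg_right hinv (Gam_nonneg (by linarith) hκ hC0))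
  refine ⟨h1, hG, ?_, h1, ?_⟩
  · have h3 := distortion h0.1 hpq hdom hθ0 (by linarith) (fun l hl => ?_) hδ
    · refine h3.trans ?_
      have h4 : ∑ l ∈ Finset.Icc p q, Gam M κ C q l l * (L * mm κ C ρ q l) ≤ θ := hdiag
      have h5 : 0 ≤ ∑ l ∈ Finset.Icc p q, Gam M κ C q l l * (L * mm κ C ρ q l) :=
        Finset.sum_nonneg fun l _ => mul_nonneg (Gam_nonneg (by linarith) hκ hC0) (hmm l)
      calc 2 * (1 - θ)⁻¹ * ∑ l ∈ Finset.Icc p q, Gam M κ C q l l * (L * mm κ C ρ q l)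
          ≤ 2 * (4 / 3) * θ := by gcongr
        _ ≤ 16 * C ^ 2 * L * ρ * κ ^ 2 := by rw [hθd] at hθ0 ⊢; linarith
    · have h4 : Gam M κ C q l l * (L * mm κ C ρ q l) ≤ θ :=
        (Finset.single_le_sum (f := fun l => Gam M κ C q l l * (L * mm κ C ρ q l))
          (fun l _ => mul_nonneg (Gam_nonneg (by linarith) hκ hC0) (hmm l)) hl).trans hdiag
      calc (1 - θ)⁻¹ * Gam M κ C q l l * (L * mm κ C ρ q l)
          = (1 - θ)⁻¹ * (Gam M κ C q l l * (L * mm κ C ρ q l)) := by ring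
        _ ≤ 4 / 3 * θ := mul_le_mul hinv h4
            (mul_nonneg (Gam_nonneg (by linarith) hκ hC0) (hmm l)) (by norm_num)
        _ ≤ 1 / 2 := by linarith
  · intro m hm1 hm2
    rcases eq_or_lt_of_le hm2 with h | h
    · subst h
      have e : (q + 1 - (q + 1)).toNat = 0 := by simp
      rw [e, pow_zero, add_sub_cancel_right]
      nlinarith [abs_nonneg (D (coe φ' x s) p q)]
    · have hmq : m ∈ Finset.Icc p q := Finset.mem_Icc.2 ⟨hm1, by omega⟩
      have h3 := hG m hmq q (Finset.mem_Icc.2 ⟨hpq, le_rfl⟩)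
      rw [← br_eq_G (by omega : m ≤ q)] at h3
      unfold br at h3
      rw [abs_div, div_le_iff₀ (abs_pos.2 h1)] at h3
      unfold Gam at h3
      rw [max_eq_right (by omega : m ≤ q), min_eq_left (by omega : m ≤ q)] at h3
      have e : (q - q).toNat = 0 := by simp
      rw [e, pow_zero, one_mul] at h3
      linarith

/-- Cauchy's mean value theorem along the family. -/
lemma tube_mvt {φ φ' : ℝ → ℝ} {x : ℝ → ℤ → ℝ} {c M L κ C ρ s0 ε : ℝ}
    (hx : Fam φ x p q c) (hφ : ∀ t, HasDerivAt φ (φ' t) t)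
    (hM : ∀ t, |φ' t| + 1 ≤ M) (hL : ∀ t t', |φ' t - φ' t'| ≤ L * |t - t'|) (hL0 : 0 ≤ L)
    (hpq : p ≤ q) (hκ : 0 ≤ κ) (hκ1 : κ ≤ 1) (hC : 1 ≤ C) (hρ : 0 ≤ ρ)
    (hMκ : M * κ ^ 2 ≤ 1 / 2) (hθ : 4 * C ^ 2 * L * ρ * κ ^ 2 ≤ 1 / 4)
    (h0 : Suf (coe φ' x s0) p q κ C) (hε : ε ≠ 0) {t : ℝ} (ht : 0 ≤ t)
    (hs : ∀ t', 0 ≤ t' → t' ≤ t → ∀ l ∈ Finset.Icc p q,
      |x (s0 + ε * t') l - x s0 l| ≤ mm κ C ρ q l) {l : ℤ} (hl1 : p - 1 ≤ l) (hl2 : l ≤ q + 1) :
    |x (s0 + ε * t) l - x s0 l| ≤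
      4 / 3 * C * κ ^ (q + 1 - l).toNat * |x (s0 + ε * t) (q + 1) - x s0 (q + 1)| := by
  rcases eq_or_lt_of_le ht with h | ht
  · rw [← h]; simp
  have hlin : ∀ t, HasDerivAt (fun t => s0 + ε * t) ε t := by
    intro t
    simpa using ((hasDerivAt_id t).const_mul ε).const_add s0
  have hd : ∀ j, p - 1 ≤ j → j ≤ q + 1 → ∀ t, HasDerivAt (fun t => x (s0 + ε * t) j)
      (D (coe φ' x (s0 + ε * t)) p (j - 1) * ε) t := fun j h1 h2 t =>
    HasDerivAt.comp (h₂ := fun s => x s j) (h := fun t => s0 + ε * t) t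
      (hx.hasDerivAt' hφ (s0 + ε * t) h1 h2) (hlin t)
  obtain ⟨ξ, hξ, h1⟩ := exists_ratio_hasDerivAt_eq_ratio_slope (fun t => x (s0 + ε * t) l)
    (fun t => D (coe φ' x (s0 + ε * t)) p (l - 1) * ε) ht
    (fun t _ => (hd l hl1 hl2 t).continuousAt.continuousWithinAt) (fun t _ => hd l hl1 hl2 t)
    (fun t => x (s0 + ε * t) (q + 1)) (fun t => D (coe φ' x (s0 + ε * t)) p (q + 1 - 1) * ε)
    (fun t _ => (hd (q + 1) (by omega) le_rfl t).continuousAt.continuousWithinAt)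
    (fun t _ => hd (q + 1) (by omega) le_rfl t)
  simp only [mul_zero, add_zero, add_sub_cancel_right] at h1
  have h2 := tubePt (s := s0 + ε * ξ) hM hL hL0 hpq hκ hκ1 hC hρ hMκ hθ h0
    (hs ξ hξ.1.le hξ.2.le)
  set A := x (s0 + ε * t) l - x s0 l
  set B := x (s0 + ε * t) (q + 1) - x s0 (q + 1)
  have h3 : |A| * |D (coe φ' x (s0 + ε * ξ)) p q| = |B| * |D (coe φ' x (s0 + ε * ξ)) p (l - 1)| := by
    have h4 : B * D (coe φ' x (s0 + ε * ξ)) p (l - 1) * ε = A * D (coe φ' x (s0 + ε * ξ)) p q * ε := by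
      linarith
    have h5 := mul_right_cancel₀ hε h4
    rw [← abs_mul, ← abs_mul, h5]
  have h4 : |D (coe φ' x (s0 + ε * ξ)) p (l - 1)| ≤
      4 / 3 * C * κ ^ (q + 1 - l).toNat * |D (coe φ' x (s0 + ε * ξ)) p q| := by
    rcases eq_or_lt_of_le hl1 with h | h
    · rw [← h, D_of_le _ (by omega), abs_zero]
      positivity
    · exact h2.suf.2 l (by omega) hl2
  have h5 : |A| * |D (coe φ' x (s0 + ε * ξ)) p q| ≤
      4 / 3 * C * κ ^ (q + 1 - l).toNat * |B| * |D (coe φ' x (s0 + ε * ξ)) p q| := by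
    rw [h3]
    calc |B| * |D (coe φ' x (s0 + ε * ξ)) p (l - 1)|
        ≤ |B| * (4 / 3 * C * κ ^ (q + 1 - l).toNat * |D (coe φ' x (s0 + ε * ξ)) p q|) :=
          mul_le_mul_of_nonneg_left h4 (abs_nonneg _)
      _ = _ := by ring
  exact le_of_mul_le_mul_right h5 (abs_pos.2 h2.sign)

/-- A full leaf of radius `ρ` through `s0`. -/
structure Tube (φ' : ℝ → ℝ) (x : ℝ → ℤ → ℝ) (p q : ℤ) (M L κ C ρ s0 s1 s2 : ℝ) : Prop where
  lt1 : s1 < s0
  lt2 : s0 < s2
  bij : BijOn (fun s => x s (q + 1)) (Icc s1 s2)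
    (Icc (x s0 (q + 1) - ρ) (x s0 (q + 1) + ρ))
  mono : StrictMonoOn (fun s => x s (q + 1)) (Icc s1 s2) ∨
    StrictAntiOn (fun s => x s (q + 1)) (Icc s1 s2)
  sign : ∀ s ∈ Icc s1 s2, 0 < D (coe φ' x s) p q * D (coe φ' x s0) p q
  disp : ∀ s ∈ Icc s1 s2, ∀ l, p - 1 ≤ l → l ≤ q + 1 → |x s l - x s0 l| ≤
    4 / 3 * C * κ ^ (q + 1 - l).toNat * |x s (q + 1) - x s0 (q + 1)|
  pt : ∀ s ∈ Icc s1 s2, TubePt φ' x p q M L κ C ρ s0 s

/-- **The tube lemma.** Suffix growth at one point gives the full leaf. -/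
theorem exists_tube {φ φ' : ℝ → ℝ} {x : ℝ → ℤ → ℝ} {c M L κ C ρ s0 : ℝ}
    (hx : Fam φ x p q c) (hφ : ∀ t, HasDerivAt φ (φ' t) t)
    (hM : ∀ t, |φ' t| + 1 ≤ M) (hL : ∀ t t', |φ' t - φ' t'| ≤ L * |t - t'|) (hL0 : 0 ≤ L)
    (hpq : p ≤ q) (hκ : 0 < κ) (hκ1 : κ ≤ 1) (hC : 1 ≤ C) (hρ : 0 < ρ)
    (hMκ : M * κ ^ 2 ≤ 1 / 2) (hθ : 4 * C ^ 2 * L * ρ * κ ^ 2 ≤ 1 / 4)
    (h0 : Suf (coe φ' x s0) p q κ C) :
    ∃ s1 s2, Tube φ' x p q M L κ C ρ s0 s1 s2 := by
  have hcont : ∀ j, p - 1 ≤ j → j ≤ q + 1 → Continuous (fun s => x s j) := fun j h1 h2 =>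
    continuous_iff_continuousAt.2 fun s => (hx.hasDerivAt' hφ s h1 h2).continuousAt
  have hmpos : ∀ l, 0 < mm κ C ρ q l := fun l => by unfold mm; positivity
  -- one direction
  have key : ∀ ε : ℝ, |ε| = 1 → ∃ t1, 0 < t1 ∧
      |x (s0 + ε * t1) (q + 1) - x s0 (q + 1)| = ρ ∧
      ∀ t', 0 ≤ t' → t' ≤ t1 → ∀ l ∈ Finset.Icc p q,
        |x (s0 + ε * t') l - x s0 l| ≤ mm κ C ρ q l := by
    intro ε hε
    have hε0 : ε ≠ 0 := by
      intro h; rw [h, abs_zero] at hε; exact zero_ne_one hε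
    have hlin : Continuous (fun t => s0 + ε * t) := by fun_prop
    refine escape (g := fun l t => x (s0 + ε * t) l - x s0 l)
      (X := fun t => x (s0 + ε * t) (q + 1) - x s0 (q + 1)) (T := mm κ C ρ q p)
      (fun l hl => ?_) ?_ (fun l _ => by simp) (by simp) (fun l _ => hmpos l) (hmpos p).le hρ
      ⟨p, Finset.mem_Icc.2 ⟨le_rfl, hpq⟩, ?_⟩ (fun t ht htube l hl => ?_)
    · have hl' := Finset.mem_Icc.1 hl
      exact ((hcont l (by omega) (by omega)).comp hlin).sub continuous_const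
    · exact ((hcont (q + 1) (by omega) le_rfl).comp hlin).sub continuous_const
    · simp only [hx.start, add_sub_cancel_left, abs_mul, hε, one_mul]
      exact le_abs_self _
    · have hl' := Finset.mem_Icc.1 hl
      have h1 := tube_mvt hx hφ hM hL hL0 hpq hκ.le hκ1 hC hρ.le hMκ hθ h0 hε0 ht htube
        (l := l) (by omega) (by omega)
      calc |x (s0 + ε * t) l - x s0 l| * (3 / 2 * ρ)
          ≤ (4 / 3 * C * κ ^ (q + 1 - l).toNat *
            |x (s0 + ε * t) (q + 1) - x s0 (q + 1)|) * (3 / 2 * ρ) :=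
            mul_le_mul_of_nonneg_right h1 (by positivity)
        _ = mm κ C ρ q l * |x (s0 + ε * t) (q + 1) - x s0 (q + 1)| := by
            unfold mm; ring
  obtain ⟨t1, ht1, hX1, htube1⟩ := key (-1) (by simp)
  obtain ⟨t2, ht2, hX2, htube2⟩ := key 1 (by simp)
  set s1 := s0 + -1 * t1 with hs1
  set s2 := s0 + 1 * t2 with hs2
  have hlt1 : s1 < s0 := by rw [hs1]; linarith
  have hlt2 : s0 < s2 := by rw [hs2]; linarith
  have htube : ∀ s ∈ Icc s1 s2, ∀ l ∈ Finset.Icc p q, |x s l - x s0 l| ≤ mm κ C ρ q l := by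
    intro s hs l hl
    rcases le_total s s0 with h | h
    · have h1 := htube1 (s0 - s) (by linarith) (by rw [hs1] at hs; linarith [hs.1]) l hl
      have e : s0 + -1 * (s0 - s) = s := by ring
      rwa [e] at h1
    · have h1 := htube2 (s - s0) (by linarith) (by rw [hs2] at hs; linarith [hs.2]) l hl
      have e : s0 + 1 * (s - s0) = s := by ring
      rwa [e] at h1
  have hpt : ∀ s ∈ Icc s1 s2, TubePt φ' x p q M L κ C ρ s0 s := fun s hs =>
    tubePt hM hL hL0 hpq hκ.le hκ1 hC hρ.le hMκ hθ h0 (htube s hs)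
  have hdisp : ∀ s ∈ Icc s1 s2, ∀ l, p - 1 ≤ l → l ≤ q + 1 → |x s l - x s0 l| ≤
      4 / 3 * C * κ ^ (q + 1 - l).toNat * |x s (q + 1) - x s0 (q + 1)| := by
    intro s hs l h1 h2
    rcases le_total s s0 with h | h
    · have h3 := tube_mvt hx hφ hM hL hL0 hpq hκ.le hκ1 hC hρ.le hMκ hθ h0
        (by norm_num : (-1 : ℝ) ≠ 0) (t := s0 - s) (by linarith)
        (fun t' ht' ht'' => htube1 t' ht' (by rw [hs1] at hs; linarith [hs.1])) h1 h2
      have e : s0 + -1 * (s0 - s) = s := by ring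
      rwa [e] at h3
    · have h3 := tube_mvt hx hφ hM hL hL0 hpq hκ.le hκ1 hC hρ.le hMκ hθ h0
        (by norm_num : (1 : ℝ) ≠ 0) (t := s - s0) (by linarith)
        (fun t' ht' ht'' => htube2 t' ht' (by rw [hs2] at hs; linarith [hs.2])) h1 h2
      have e : s0 + 1 * (s - s0) = s := by ring
      rwa [e] at h3
  have hder : ∀ s, HasDerivAt (fun s => x s (q + 1)) (D (coe φ' x s) p q) s := by
    intro s
    have := hx.hasDerivAt' hφ s (j := q + 1) (by omega) le_rfl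
    rwa [add_sub_cancel_right] at this
  have hc := hcont (q + 1) (by omega) le_rfl
  have hs0 : s0 ∈ Icc s1 s2 := ⟨hlt1.le, hlt2.le⟩
  have hs1' : s1 ∈ Icc s1 s2 := ⟨le_rfl, by linarith⟩
  have hs2' : s2 ∈ Icc s1 s2 := ⟨by linarith, le_rfl⟩
  have h12 : s1 ≤ s2 := by linarith
  have hdich := hasDerivWithinAt_forall_lt_or_forall_gt_of_forall_ne (f := fun s => x s (q + 1))
    (f' := fun s => D (coe φ' x s) p q) (m := 0) (convex_Icc s1 s2)
    (fun s _ => (hder s).hasDerivWithinAt) (fun s hs => (hpt s hs).sign)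
  rcases hdich with hneg | hpos
  · have hanti : StrictAntiOn (fun s => x s (q + 1)) (Icc s1 s2) := by
      refine strictAntiOn_of_deriv_neg (convex_Icc s1 s2) hc.continuousOn fun s hs => ?_
      rw [(hder s).deriv]
      exact hneg s (interior_subset hs)
    have e1 : x s1 (q + 1) = x s0 (q + 1) + ρ := by
      have h3 : x s0 (q + 1) < x s1 (q + 1) := hanti hs1' hs0 hlt1
      rw [abs_of_pos (by linarith)] at hX1
      linarith
    have e2 : x s2 (q + 1) = x s0 (q + 1) - ρ := by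
      have h3 : x s2 (q + 1) < x s0 (q + 1) := hanti hs0 hs2' hlt2
      rw [abs_of_neg (by linarith)] at hX2
      linarith
    refine ⟨s1, s2, hlt1, hlt2, ⟨fun s hs => ?_, hanti.injOn, ?_⟩, Or.inr hanti,
      fun s hs => mul_pos_of_neg_of_neg (hneg s hs) (hneg s0 hs0), hdisp, hpt⟩
    · simp only
      rw [← e1, ← e2]
      exact ⟨hanti.antitoneOn hs hs2' hs.2, hanti.antitoneOn hs1' hs hs.1⟩
    · rw [← e1, ← e2]
      exact intermediate_value_Icc' h12 hc.continuousOn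
  · have hmono : StrictMonoOn (fun s => x s (q + 1)) (Icc s1 s2) := by
      refine strictMonoOn_of_deriv_pos (convex_Icc s1 s2) hc.continuousOn fun s hs => ?_
      rw [(hder s).deriv]
      exact hpos s (interior_subset hs)
    have e1 : x s1 (q + 1) = x s0 (q + 1) - ρ := by
      have h3 : x s1 (q + 1) < x s0 (q + 1) := hmono hs1' hs0 hlt1
      rw [abs_of_neg (by linarith)] at hX1
      linarith
    have e2 : x s2 (q + 1) = x s0 (q + 1) + ρ := by
      have h3 : x s0 (q + 1) < x s2 (q + 1) := hmono hs0 hs2' hlt2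
      rw [abs_of_pos (by linarith)] at hX2
      linarith
    refine ⟨s1, s2, hlt1, hlt2, ⟨fun s hs => ?_, hmono.injOn, ?_⟩, Or.inl hmono,
      fun s hs => mul_pos (hpos s hs) (hpos s0 hs0), hdisp, hpt⟩
    · simp only
      rw [← e1, ← e2]
      exact ⟨hmono.monotoneOn hs1' hs hs.1, hmono.monotoneOn hs hs2' hs.2⟩
    · rw [← e1, ← e2]
      exact intermediate_value_Icc h12 hc.continuousOn

/-- a displacement of `s` small with respect to `ρ / |D|` stays in the tube -/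
lemma Tube.mem {φ φ' : ℝ → ℝ} {x : ℝ → ℤ → ℝ} {c M L κ C ρ s0 s1 s2 : ℝ}
    (hx : Fam φ x p q c) (hφ : ∀ t, HasDerivAt φ (φ' t) t) (hpq : p ≤ q)
    (hθ : 4 * C ^ 2 * L * ρ * κ ^ 2 ≤ 1 / 8)
    (h : Tube φ' x p q M L κ C ρ s0 s1 s2) {s : ℝ}
    (hs : |s - s0| * |D (coe φ' x s0) p q| ≤ ρ / 2) : s ∈ Icc s1 s2 := by
  have hder : ∀ s, HasDerivAt (fun s => x s (q + 1)) (D (coe φ' x s) p q) s := by
    intro s
    have := hx.hasDerivAt' hφ s (j := q + 1) (by omega) le_rfl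
    rwa [add_sub_cancel_right] at this
  have hs0 : s0 ∈ Icc s1 s2 := ⟨h.lt1.le, h.lt2.le⟩
  have hD0 : 0 < |D (coe φ' x s0) p q| := abs_pos.2 (h.pt s0 hs0).sign
  have hDs : ∀ s ∈ Icc s1 s2, |D (coe φ' x s) p q| < 2 * |D (coe φ' x s0) p q| := by
    intro s hs
    have h1 := (h.pt s hs).dist
    have h2 : Real.log |D (coe φ' x s) p q| ≤ Real.log |D (coe φ' x s0) p q| + 1 / 2 := by
      have := (abs_le.1 h1).2
      linarith
    have h3 : |D (coe φ' x s) p q| ≤ |D (coe φ' x s0) p q| * Real.exp (1 / 2) := by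
      have h4 := Real.exp_le_exp.2 h2
      rw [Real.exp_add, Real.exp_log (abs_pos.2 (h.pt s hs).sign), Real.exp_log hD0] at h4
      exact h4
    have h5 : Real.exp (1 / 2) < 2 := by
      have h6 : Real.exp (1 / 2) ^ 2 < 2 ^ 2 := by
        rw [← Real.exp_nat_mul]
        have e : ((2 : ℕ) : ℝ) * (1 / 2) = 1 := by norm_num
        rw [e]
        linarith [Real.exp_one_lt_d9]
      exact lt_of_pow_lt_pow_left₀ 2 (by norm_num) h6
    nlinarith
  have hρ : 0 < ρ := by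
    have h1 := h.bij.mapsTo hs0
    have h2 := h.bij.mapsTo (show s1 ∈ Icc s1 s2 from ⟨le_rfl, h.lt1.le.trans h.lt2.le⟩)
    simp only [Set.mem_Icc] at h1 h2
    by_contra hcon
    have h3 : x s1 (q + 1) = x s0 (q + 1) := by
      rcases eq_or_lt_of_le (not_lt.1 hcon) with h4 | h4
      · rw [h4] at h2
        linarith [h2.1, h2.2]
      · linarith [h1.1]
    have h4 := h.bij.injOn (show s1 ∈ Icc s1 s2 from ⟨le_rfl, h.lt1.le.trans h.lt2.le⟩) hs0 h3
    exact absurd h4 h.lt1.ne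
  have key : ∀ s', s' ∈ Icc s1 s2 → s' ≠ s0 →
      |x s' (q + 1) - x s0 (q + 1)| < 2 * |D (coe φ' x s0) p q| * |s' - s0| := by
    intro s' hs' hne
    have hcv : Convex ℝ (Icc s1 s2) := convex_Icc s1 s2
    have : ∃ ξ ∈ Icc s1 s2, x s' (q + 1) - x s0 (q + 1) =
        D (coe φ' x ξ) p q * (s' - s0) := by
      rcases lt_or_gt_of_ne hne with hlt | hlt
      · obtain ⟨ξ, hξ, h1⟩ := exists_hasDerivAt_eq_slope (fun s => x s (q + 1))
          (fun s => D (coe φ' x s) p q) hlt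
          (fun t _ => (hder t).continuousAt.continuousWithinAt) (fun t _ => hder t)
        refine ⟨ξ, ⟨hs'.1.trans hξ.1.le, hξ.2.le.trans hs0.2⟩, ?_⟩
        have h2 : s0 - s' ≠ 0 := (sub_pos.2 hlt).ne'
        field_simp at h1
        linarith
      · obtain ⟨ξ, hξ, h1⟩ := exists_hasDerivAt_eq_slope (fun s => x s (q + 1))
          (fun s => D (coe φ' x s) p q) hlt
          (fun t _ => (hder t).continuousAt.continuousWithinAt) (fun t _ => hder t)
        refine ⟨ξ, ⟨hs0.1.trans hξ.1.le, hξ.2.le.trans hs'.2⟩, ?_⟩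
        have h2 : s' - s0 ≠ 0 := (sub_pos.2 hlt).ne'
        field_simp at h1
        linarith
    obtain ⟨ξ, hξ, h1⟩ := this
    rw [h1, abs_mul]
    exact mul_lt_mul_of_pos_right (hDs ξ hξ) (abs_pos.2 (sub_ne_zero.2 hne))
  have hend : ∀ s', s' ∈ Icc s1 s2 → |x s' (q + 1) - x s0 (q + 1)| = ρ →
      ρ / 2 < |s' - s0| * |D (coe φ' x s0) p q| := by
    intro s' hs' h1
    have hne : s' ≠ s0 := by
      intro h2
      rw [h2, sub_self, abs_zero] at h1
      exact hρ.ne h1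
    have h2 := key s' hs' hne
    rw [h1] at h2
    linarith
  have hs1' : s1 ∈ Icc s1 s2 := ⟨le_rfl, h.lt1.le.trans h.lt2.le⟩
  have hs2' : s2 ∈ Icc s1 s2 := ⟨h.lt1.le.trans h.lt2.le, le_rfl⟩
  have hends : |x s1 (q + 1) - x s0 (q + 1)| = ρ ∧ |x s2 (q + 1) - x s0 (q + 1)| = ρ := by
    have hlo : x s0 (q + 1) - ρ ∈ Icc (x s0 (q + 1) - ρ) (x s0 (q + 1) + ρ) :=
      ⟨le_rfl, by linarith⟩
    have hhi : x s0 (q + 1) + ρ ∈ Icc (x s0 (q + 1) - ρ) (x s0 (q + 1) + ρ) :=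
      ⟨by linarith, le_rfl⟩
    obtain ⟨u, hu, hu'⟩ := h.bij.surjOn hlo
    obtain ⟨v, hv, hv'⟩ := h.bij.surjOn hhi
    simp only at hu' hv'
    have m1 := h.bij.mapsTo hs1'
    have m2 := h.bij.mapsTo hs2'
    simp only [Set.mem_Icc] at m1 m2
    rcases h.mono with hm | hm
    · have a1 : x s1 (q + 1) ≤ x u (q + 1) := hm.monotoneOn hs1' hu hu.1
      have a2 : x v (q + 1) ≤ x s2 (q + 1) := hm.monotoneOn hv hs2' hv.2
      have b1 : x s1 (q + 1) - x s0 (q + 1) = -ρ := by linarith [m1.1]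
      have b2 : x s2 (q + 1) - x s0 (q + 1) = ρ := by linarith [m2.2]
      rw [b1, b2, abs_neg, abs_of_pos hρ]
      exact ⟨rfl, rfl⟩
    · have a1 : x v (q + 1) ≤ x s1 (q + 1) := hm.antitoneOn hs1' hv hv.1
      have a2 : x s2 (q + 1) ≤ x u (q + 1) := hm.antitoneOn hu hs2' hu.2
      have b1 : x s1 (q + 1) - x s0 (q + 1) = ρ := by linarith [m1.2]
      have b2 : x s2 (q + 1) - x s0 (q + 1) = -ρ := by linarith [m2.1]
      rw [b1, b2, abs_neg, abs_of_pos hρ]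
      exact ⟨rfl, rfl⟩
  have c1 := hend s1 hs1' hends.1
  have c2 := hend s2 hs2' hends.2
  rw [abs_of_neg (by linarith [h.lt1])] at c1
  rw [abs_of_pos (by linarith [h.lt2])] at c2
  constructor
  · by_contra hcon
    have h1 : |s - s0| = s0 - s := by
      rw [abs_of_neg (by linarith [h.lt1])]; ring
    rw [h1] at hs
    nlinarith
  · by_contra hcon
    have h1 : |s - s0| = s - s0 := abs_of_pos (by linarith [h.lt2])
    rw [h1] at hs
    nlinarith

end Vale.Agent.P108.H504
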