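import Vale.Agent.P108.H504.Leaf
import Vale.Agent.P108.Dyn.Basic

/-!
# P108: reflection of continuants, and the tube lemma for the standard map
-/

namespace Vale.Agent.P108.H504

open Set

variable {a a' : ℤ → ℝ} {p q i j : ℤ}

/-- **Reflection.** -/
lemma D_reflect_aux (a : ℤ → ℝ) (p : ℤ) : ∀ n : ℕ,
    D (fun j => a (-j)) p (p - 2 + n) = D a (-(p - 2 + n)) (-p)
  | 0 => by
    rw [D_of_le _ (by simp), D_of_le _ (by push_cast; omega)]
  | 1 => by
    have e1 : p - 2 + ((1 : ℕ) : ℤ) = p - 1 := by push_cast; ring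
    rw [e1, D_empty]
    have e2 : -(p - 1) = -p + 1 := by ring
    rw [e2, D_empty']
  | (n + 2) => by
    have i1 := D_reflect_aux a p (n + 1)
    have i0 := D_reflect_aux a p n
    rw [D_right (fun j => a (-j)) (by push_cast; omega : p ≤ p - 2 + ((n + 2 : ℕ) : ℤ)),
      D_left a (by push_cast; omega : -(p - 2 + ((n + 2 : ℕ) : ℤ)) ≤ -p)]
    have e1 : p - 2 + ((n + 2 : ℕ) : ℤ) - 1 = p - 2 + ((n + 1 : ℕ) : ℤ) := by push_cast; ring
    have e2 : p - 2 + ((n + 2 : ℕ) : ℤ) - 2 = p - 2 + (n : ℤ) := by push_cast; ring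
    have e3 : -(p - 2 + ((n + 2 : ℕ) : ℤ)) + 1 = -(p - 2 + ((n + 1 : ℕ) : ℤ)) := by
      push_cast; ring
    have e4 : -(p - 2 + ((n + 2 : ℕ) : ℤ)) + 2 = -(p - 2 + (n : ℤ)) := by push_cast; ring
    rw [e1, e2, e3, e4, i1, i0]

lemma D_reflect (a : ℤ → ℝ) (p q : ℤ) : D (fun j => a (-j)) p q = D a (-q) (-p) := by
  rcases lt_or_ge q (p - 2) with h | h
  · rw [D_of_le _ h.le, D_of_le _ (by omega)]
  · obtain ⟨n, rfl⟩ := Int.le.dest h
    exact D_reflect_aux a p n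

/-- Mirror suffix growth: prefix growth. `|D (m+1) q| ≤ C κ^(m-p+1) |D p q|`. -/
def Pre (a : ℤ → ℝ) (p q : ℤ) (κ C : ℝ) : Prop :=
  D a p q ≠ 0 ∧ ∀ m, p - 1 ≤ m → m ≤ q →
    |D a (m + 1) q| ≤ C * κ ^ (m - p + 1).toNat * |D a p q|

lemma suf_reflect {κ C : ℝ} : Suf (fun j => a (-j)) p q κ C ↔ Pre a (-q) (-p) κ C := by
  unfold Suf Pre
  rw [D_reflect]
  refine and_congr_right fun _ => ⟨fun h m h1 h2 => ?_, fun h m h1 h2 => ?_⟩
  · have := h (-m) (by omega) (by omega)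
    rw [D_reflect] at this
    have e1 : -(-m - 1) = m + 1 := by ring
    have e2 : (q + 1 - -m).toNat = (m - -q + 1).toNat := by congr 1; ring
    rwa [e1, e2] at this
  · have := h (-m) (by omega) (by omega)
    rw [D_reflect]
    have e1 : -m + 1 = -(m - 1) := by ring
    have e2 : (-m - -q + 1).toNat = (q + 1 - m).toNat := by congr 1; ring
    rwa [e1, e2] at this

/-! ### The standard map -/

lemma abs_FTa_le {k : ℝ} (hk : 2 ≤ k) (t : ℝ) : |FT.a k t| + 1 ≤ 8 * k := by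
  unfold FT.a
  have h1 : |2 + 2 * Real.pi * k * Real.cos (2 * Real.pi * t)| ≤ 2 + 2 * Real.pi * k := by
    refine (abs_add_le _ _).trans ?_
    rw [abs_mul, abs_of_pos (show (0 : ℝ) < 2 * Real.pi * k by positivity),
      abs_of_pos (show (0 : ℝ) < 2 by norm_num)]
    have := mul_le_mul_of_nonneg_left (Real.abs_cos_le_one (2 * Real.pi * t))
      (show (0 : ℝ) ≤ 2 * Real.pi * k by positivity)
    linarith
  have hpi := Real.pi_lt_d2
  nlinarith

end Vale.Agent.P108.H504
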