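import Mathlib.Data.Real.Basic
import Mathlib.Algebra.BigOperators.Intervals
import Mathlib.Data.Int.Interval
import Mathlib.Tactic

/-!
# P108: continuants (Dirichlet determinants of Jacobi matrices with off-diagonal `-1`)

`S a p n` : the value at the site `p - 1 + n` of the solution `u` of
`u (j+1) = a j * u j - u (j-1)` with `u (p-1) = 0`, `u p = 1`.
`D a p q = det H_[p,q]` (`= 1` for `q = p - 1`, `= 0` for `q ≤ p - 2`).
-/

namespace Vale.Agent.P108.H504

/-- Solution of the recursion with `u (p-1) = 0`, `u p = 1`, at `p - 1 + n`. -/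
def S (a : ℤ → ℝ) (p : ℤ) : ℕ → ℝ
  | 0 => 0
  | 1 => 1
  | (n + 2) => a (p + n) * S a p (n + 1) - S a p n

/-- Dirichlet determinant on `[p, q]`. -/
def D (a : ℤ → ℝ) (p q : ℤ) : ℝ := S a p (q - p + 2).toNat

variable {a a' : ℤ → ℝ} {p q r i j : ℤ}

@[simp] lemma S_zero (a : ℤ → ℝ) (p : ℤ) : S a p 0 = 0 := rfl

@[simp] lemma S_one (a : ℤ → ℝ) (p : ℤ) : S a p 1 = 1 := rfl

lemma S_succ (a : ℤ → ℝ) (p : ℤ) (n : ℕ) :
    S a p (n + 2) = a (p + n) * S a p (n + 1) - S a p n := rfl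

lemma S_congr (p : ℤ) : ∀ n : ℕ, (∀ j : ℤ, p ≤ j → j ≤ p - 2 + n → a j = a' j) →
    S a p n = S a' p n
  | 0, _ => rfl
  | 1, _ => rfl
  | (n + 2), h => by
    rw [S_succ, S_succ, S_congr p (n + 1) (fun j h1 h2 => h j h1 (by push_cast at *; omega)),
      S_congr p n (fun j h1 h2 => h j h1 (by push_cast at *; omega)),
      h (p + n) (by omega) (by push_cast; omega)]

/-- Left recursion. -/
lemma S_left (a : ℤ → ℝ) (p : ℤ) : ∀ n : ℕ,
    S a p (n + 2) = a p * S a (p + 1) (n + 1) - S a (p + 2) n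
  | 0 => by simp [S_succ]
  | 1 => by
    simp only [S_succ, S_one, S_zero]
    push_cast
    simp
    ring
  | (n + 2) => by
    have e1 := S_left a p (n + 1)
    have e2 := S_left a p n
    rw [S_succ a p (n + 2), e1, e2]
    have f1 : S a (p + 1) (n + 2 + 1) = a (p + 1 + (n + 1 : ℕ)) * S a (p + 1) (n + 1 + 1) -
        S a (p + 1) (n + 1) := S_succ a (p + 1) (n + 1)
    have f2 : S a (p + 2) (n + 2) = a (p + 2 + (n : ℕ)) * S a (p + 2) (n + 1) -
        S a (p + 2) n := S_succ a (p + 2) n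
    rw [f1, f2]
    have g1 : p + ((n + 2 : ℕ) : ℤ) = p + 2 + (n : ℕ) := by push_cast; ring
    have g2 : p + 1 + ((n + 1 : ℕ) : ℤ) = p + 2 + (n : ℕ) := by push_cast; ring
    rw [g1, g2]
    ring

lemma D_empty (a : ℤ → ℝ) (p : ℤ) : D a p (p - 1) = 1 := by
  unfold D
  have : (p - 1 - p + 2).toNat = 1 := by omega
  rw [this, S_one]

lemma D_of_le (a : ℤ → ℝ) (h : q ≤ p - 2) : D a p q = 0 := by
  unfold D
  have : (q - p + 2).toNat = 0 := by omega
  rw [this, S_zero]

lemma D_empty' (a : ℤ → ℝ) (q : ℤ) : D a (q + 1) q = 1 := by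
  have := D_empty a (q + 1)
  simpa using this

lemma D_zero' (a : ℤ → ℝ) (q : ℤ) : D a (q + 2) q = 0 := D_of_le a (by omega)

/-- Right recursion. -/
lemma D_right (a : ℤ → ℝ) (h : p ≤ q) : D a p q = a q * D a p (q - 1) - D a p (q - 2) := by
  obtain ⟨n, rfl⟩ := Int.le.dest h
  unfold D
  have e1 : (p + (n : ℤ) - p + 2).toNat = n + 2 := by omega
  have e2 : (p + (n : ℤ) - 1 - p + 2).toNat = n + 1 := by omega
  have e3 : (p + (n : ℤ) - 2 - p + 2).toNat = n := by omega
  rw [e1, e2, e3, S_succ]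

/-- Left recursion. -/
lemma D_left (a : ℤ → ℝ) (h : p ≤ q) : D a p q = a p * D a (p + 1) q - D a (p + 2) q := by
  obtain ⟨n, rfl⟩ := Int.le.dest h
  unfold D
  have e1 : (p + (n : ℤ) - p + 2).toNat = n + 2 := by omega
  have e2 : (p + (n : ℤ) - (p + 1) + 2).toNat = n + 1 := by omega
  have e3 : (p + (n : ℤ) - (p + 2) + 2).toNat = n := by omega
  rw [e1, e2, e3, S_left]

lemma D_self (a : ℤ → ℝ) (p : ℤ) : D a p p = a p := by
  rw [D_right a le_rfl, D_empty, D_of_le a (by omega)]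
  ring

lemma D_congr (h : ∀ j, p ≤ j → j ≤ q → a j = a' j) : D a p q = D a' p q := by
  unfold D
  exact S_congr p _ fun j h1 h2 => h j h1 (by omega)

/-- A sequence satisfying the recursion on `[p, q]`. -/
def IsSol (a : ℤ → ℝ) (p q : ℤ) (u : ℤ → ℝ) : Prop :=
  ∀ j, p ≤ j → j ≤ q → u (j + 1) = a j * u j - u (j - 1)

lemma IsSol.mono {u : ℤ → ℝ} (h : IsSol a p q u) {p' q' : ℤ} (hp : p ≤ p') (hq : q' ≤ q) :
    IsSol a p' q' u := fun j h1 h2 => h j (hp.trans h1) (h2.trans hq)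

lemma isSol_D_right (a : ℤ → ℝ) (p q : ℤ) : IsSol a p q (fun j => D a p (j - 1)) := by
  intro j h1 h2
  have := D_right a h1
  have e : j - 1 - 1 = j - 2 := by ring
  simp only [add_sub_cancel_right, e]
  exact this

lemma isSol_D_left (a : ℤ → ℝ) (p q : ℤ) : IsSol a p q (fun j => D a (j + 1) q) := by
  intro j h1 h2
  have := D_left a h2
  have e : j + 1 + 1 = j + 2 := by ring
  simp only [sub_add_cancel, e]
  linarith

/-- General solution in terms of the data at `p - 1`, `p`. -/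
lemma IsSol.eq {u : ℤ → ℝ} (h : IsSol a p q u) : ∀ n : ℕ, p + n ≤ q + 1 →
    u (p + n) = u p * D a p (p + n - 1) - u (p - 1) * D a (p + 1) (p + n - 1)
  | 0, _ => by
    have e1 : D a p (p + ((0 : ℕ) : ℤ) - 1) = 1 := by simpa using D_empty a p
    have e2 : D a (p + 1) (p + ((0 : ℕ) : ℤ) - 1) = 0 := D_of_le a (by simp; omega)
    rw [e1, e2]
    simp
  | 1, hn => by
    have e1 : D a p (p + ((1 : ℕ) : ℤ) - 1) = a p := by simpa using D_self a p
    have e2 : D a (p + 1) (p + ((1 : ℕ) : ℤ) - 1) = 1 := by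
      simpa using D_empty' a p
    rw [e1, e2]
    have := h p le_rfl (by push_cast at hn; omega)
    simp only [Nat.cast_one]
    rw [this]
    ring
  | (n + 2), hn => by
    have i1 := IsSol.eq h (n + 1) (by push_cast at *; omega)
    have i0 := IsSol.eq h n (by push_cast at *; omega)
    have h2 := h (p + (n + 1 : ℕ)) (by push_cast; omega) (by push_cast at *; omega)
    have f1 : p + ((n + 2 : ℕ) : ℤ) = p + ((n + 1 : ℕ) : ℤ) + 1 := by push_cast; ring
    have f2 : p + ((n + 1 : ℕ) : ℤ) - 1 = p + (n : ℤ) := by push_cast; ring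
    rw [f1, h2, f2]
    have r1 := D_right a (p := p) (q := p + ((n + 1 : ℕ) : ℤ)) (by push_cast; omega)
    have r2 := D_right a (p := p + 1) (q := p + ((n + 1 : ℕ) : ℤ)) (by push_cast; omega)
    have f3 : p + ((n + 1 : ℕ) : ℤ) - 2 = p + (n : ℤ) - 1 := by push_cast; ring
    have f4 : p + ((n + 1 : ℕ) : ℤ) + 1 - 1 = p + ((n + 1 : ℕ) : ℤ) := by ring
    rw [f2, f3] at r1 r2
    rw [f4, r1, r2]
    rw [f2] at i1
    rw [i1, i0]
    ring

lemma IsSol.eq' {u : ℤ → ℝ} (h : IsSol a p q u) (h1 : p ≤ j) (h2 : j ≤ q + 1) :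
    u j = u p * D a p (j - 1) - u (p - 1) * D a (p + 1) (j - 1) := by
  obtain ⟨n, rfl⟩ := Int.le.dest h1
  exact h.eq n h2

/-- **Concatenation.** -/
lemma D_concat (a : ℤ → ℝ) (h1 : p - 1 ≤ j) (h2 : j ≤ q) :
    D a p q = D a p j * D a (j + 1) q - D a p (j - 1) * D a (j + 2) q := by
  rcases eq_or_lt_of_le h2 with h | h
  · subst h
    rw [D_empty', D_zero']
    ring
  rcases eq_or_lt_of_le h1 with h' | h'
  · subst h'
    have e : p - 1 + 1 = p := by ring
    rw [D_empty, e, D_of_le a (show p - 1 - 1 ≤ p - 2 by omega)]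
    ring
  have hs : IsSol a (j + 1) q (fun i => D a p (i - 1)) :=
    (isSol_D_right a p q).mono (by omega) le_rfl
  have := hs.eq' (j := q + 1) (by omega) (by omega)
  simp only [add_sub_cancel_right] at this
  have e : j + 1 + 1 = j + 2 := by ring
  rw [e] at this
  rw [this]

/-- **Wronskian** of two solutions. -/
lemma IsSol.wronskian {u v : ℤ → ℝ} (hu : IsSol a p q u) (hv : IsSol a p q v) (h1 : p - 1 ≤ j)
    (h2 : j ≤ q) : u j * v (j + 1) - u (j + 1) * v j = u (p - 1) * v p - u p * v (p - 1) := by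
  obtain ⟨n, hn⟩ := Int.le.dest h1
  subst hn
  induction n with
  | zero => simp
  | succ n ih =>
    have := ih (by omega) (by push_cast at h2; omega)
    rw [← this]
    have e1 := hu (p - 1 + ((n + 1 : ℕ) : ℤ)) (by push_cast; omega) h2
    have e2 := hv (p - 1 + ((n + 1 : ℕ) : ℤ)) (by push_cast; omega) h2
    have f : p - 1 + ((n + 1 : ℕ) : ℤ) - 1 = p - 1 + (n : ℤ) := by push_cast; ring
    have f2 : p - 1 + (n : ℤ) + 1 = p - 1 + ((n + 1 : ℕ) : ℤ) := by push_cast; ring
    rw [e1, e2, f, f2]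
    ring

/-- Wronskian of `D a u ·` and `D a r ·`: the exact difference of local Riccati variables. -/
lemma D_wronskian_right (a : ℤ → ℝ) {u : ℤ} (h : u ≤ r) (hj : r - 1 ≤ j) :
    D a u (j - 1) * D a r j - D a u j * D a r (j - 1) = D a u (r - 2) := by
  have hu : IsSol a r j (fun i => D a u (i - 1)) := (isSol_D_right a u j).mono h le_rfl
  have hr : IsSol a r j (fun i => D a r (i - 1)) := isSol_D_right a r j
  have := hu.wronskian hr (j := j) hj le_rfl
  simp only [add_sub_cancel_right] at this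
  rw [this, D_empty, D_of_le a (show r - 1 - 1 ≤ r - 2 by omega)]
  have e : r - 1 - 1 = r - 2 := by ring
  rw [e]
  ring

/-- Mirror image. -/
lemma D_wronskian_left (a : ℤ → ℝ) {v : ℤ} (h : r ≤ v) (hj : j ≤ r + 1) :
    D a (j + 1) v * D a j r - D a j v * D a (j + 1) r = D a (r + 2) v := by
  have hu : IsSol a j r (fun i => D a (i + 1) v) := (isSol_D_left a j v).mono le_rfl h
  have hr : IsSol a j r (fun i => D a (i + 1) r) := isSol_D_left a j r
  have := hu.wronskian hr (j := r) (by omega) le_rfl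
  have e : r + 1 + 1 = r + 2 := by ring
  rw [e, D_zero', D_empty'] at this
  have e2 : j - 1 + 1 = j := by ring
  rw [e2] at this
  linarith

/-- Cutting out a block `[p, q]` of `[u, v]`. -/
lemma D_cut (a : ℤ → ℝ) {u v : ℤ} (hu : u ≤ p) (hpq : p ≤ q) (hv : q ≤ v) :
    D a u v = D a u (p - 1) * D a (q + 1) v * D a p q
      - D a u (p - 2) * D a (q + 1) v * D a (p + 1) q
      - D a u (p - 1) * D a (q + 2) v * D a p (q - 1)
      + D a u (p - 2) * D a (q + 2) v * D a (p + 1) (q - 1) := by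
  have h1 := D_concat a (p := u) (q := v) (j := p - 1) (by omega) (by omega)
  have h2 := D_concat a (p := p) (q := v) (j := q) (by omega) hv
  have h3 := D_concat a (p := p + 1) (q := v) (j := q) (by omega) hv
  have e1 : p - 1 + 1 = p := by ring
  have e2 : p - 1 - 1 = p - 2 := by ring
  have e3 : p - 1 + 2 = p + 1 := by ring
  rw [e1, e2, e3] at h1
  rw [h1, h2, h3]
  ring

end Vale.Agent.P108.H504
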