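import Vale.Agent.P108.H504.Det3
import Vale.Agent.P108.Sk.Blocks

/-!
# P108, block [GROW]: `DetGrow` from hyperbolicity of the good windows of a `Setting`
-/

open Set

namespace Vale.Agent.P108.H504

open P108C

variable {a : ℤ → ℝ} {X : Set ℤ}

/-- **[DET-2], left window, general exponents.** -/
theorem suf_of_hyp' {B L E κ c0 c1 : ℝ} {Λ K Ka Kb N0 : ℕ} {p b : ℤ}
    (hyp : H462.Hyp a X B Λ c0 p b)
    (hpb : p < b) (hc01 : c0 < 1) (hK : 1 ≤ K) (hKa : Ka ≤ K) (hN0 : 2 ≤ N0)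
    (hg : ∀ t, p ≤ t → t < b → t ∉ X → 16 ≤ |a t|)
    (hB : ∀ t, p ≤ t → t < b → |a t| + 1 ≤ B) (hB1 : 1 ≤ B)
    (hc1 : 0 < c1) (hcc : 10 * N0 * c1 ≤ c0)
    (hLG : ∀ r : ℕ, 1 ≤ r → p ≤ b - r → (ms X (b - r) b : ℝ) ≤ c1 * r)
    (hRG : ∀ r : ℕ, 1 ≤ r → p + r ≤ b → (ms X p (p + r) : ℝ) < c0 * r)
    (hΛ : K * Λ * c1 ≤ Kb)
    (hnc : ∀ i, p ≤ i → i < b → (K * (ms X i b + ms {t | |a t| < 2 * L} i b : ℕ) : ℤ) ≤
      Ka * (b - i))
    (hL : 1 ≤ L) (hE : 1 ≤ E) (hEL : E ^ K * B ^ Kb ≤ L ^ (K - Ka)) (hκ : 0 < κ)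
    (h1 : 1 ≤ κ * E) (h2 : B ≤ (κ * E) ^ N0) :
    Suf a p (b - 1) κ 2 := by
  have hKr : (2 : ℝ) ≤ N0 := by exact_mod_cast hN0
  have hc0 : 0 < c0 := by nlinarith
  refine suf_of_det (X := X) (c' := 2 * c1) (c0 := c0) (M := B) (E := E) (N0 := N0) (by linarith)
    hN0 (by linarith) hB1 (fun j h3 h4 => hB j h3 (by omega)) hE hκ h1 h2 (by omega)
    ?_ ?_ ?_ ?_
  · intro r hr1 hr2
    rw [sub_add_cancel] at hr2 ⊢
    have h3 := hLG r hr1 hr2
    have hr0 : (0 : ℝ) < r := by exact_mod_cast (by omega : 0 < r)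
    nlinarith
  · intro r hr1 hr2
    exact hRG r hr1 (by omega)
  · intro i j h3 h4 h5 hgood
    have hgd := hgood.good462
    obtain ⟨h6, h7, h8⟩ := hyp.2 i (j + 1) h3 (by omega) (by omega) hgd
    have hi : i ∉ X := hgd.1.notMem (by omega) hc01
    have hj : j ∉ X := by
      have := hgd.2.notMem (by omega) hc01
      rwa [add_sub_cancel_right] at this
    have hai := hg i h3 (by omega) hi
    have haj := hg j (by omega) (by omega) hj
    have hrho := H462.rho_le (j + 1 - i).toNat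
    have hrho0 := H462.rho_pos (j + 1 - i).toNat
    rw [D462_eq, D462_eq, add_sub_cancel_right] at h7 h8
    rw [D462_eq, add_sub_cancel_right] at h6
    have hWt : 0 < H462.Wt a X i (j + 1) := by
      refine Finset.prod_pos fun t ht => ?_
      rw [Finset.mem_Ico] at ht
      unfold H462.wt
      split_ifs with hx
      · exact one_pos
      · have := hg t (by omega) (by omega) hx
        linarith
    have hD0 : 0 < |D a i j| := by
      by_contra hcon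
      have h9 : |D a i j| = 0 := le_antisymm (not_lt.1 hcon) (abs_nonneg _)
      rw [h9, zero_mul] at h6
      linarith
    refine ⟨abs_pos.1 hD0, ?_, ?_⟩
    · have h9 : |a j| * |D a i (j - 1)| ≤ 2 * |D a i j| :=
        h7.trans (mul_le_mul_of_nonneg_right hrho (abs_nonneg _))
      have h10 : 16 * |D a i (j - 1)| ≤ |a j| * |D a i (j - 1)| :=
        mul_le_mul_of_nonneg_right haj (abs_nonneg _)
      linarith [abs_nonneg (D a i (j - 1))]
    · have h9 : |a i| * |D a (i + 1) j| ≤ 2 * |D a i j| :=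
        h8.trans (mul_le_mul_of_nonneg_right hrho (abs_nonneg _))
      have h10 : 16 * |D a (i + 1) j| ≤ |a i| * |D a (i + 1) j| :=
        mul_le_mul_of_nonneg_right hai (abs_nonneg _)
      linarith [abs_nonneg (D a (i + 1) j)]
  · intro m hm1 hm2 hgood
    rw [sub_add_cancel]
    have hgd := hgood.good462
    rw [sub_add_cancel] at hgd
    obtain ⟨h6, -, -⟩ := hyp.2 m b hm1 (by omega) le_rfl hgd
    rw [D462_eq] at h6
    obtain ⟨n, hn⟩ : ∃ n : ℕ, (n : ℤ) = b - m := ⟨(b - m).toNat, by omega⟩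
    have hn' : (b - m).toNat = n := by omega
    rw [hn']
    have hW := le_Wt (a := a) (X := X) (L := L) hL (u := m) (v := b)
      (by omega) (fun t h3 h4 h5 => by linarith [hg t (by omega) h4 h5])
    rw [hn'] at hW
    set N := ms X m b + ms {t | |a t| < 2 * L} m b with hN
    have hKN : K * N ≤ Ka * n := by
      have := hnc m hm1 (by omega)
      rw [← hN, ← hn] at this
      exact_mod_cast this
    have hΛms : K * (Λ * ms X m b) ≤ Kb * n := by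
      have h3 := hLG n (by omega) (by omega)
      have e : b - (n : ℤ) = m := by omega
      rw [e] at h3
      have h4 : ((K * (Λ * ms X m b) : ℕ) : ℝ) ≤ ((Kb * n : ℕ) : ℝ) := by
        push_cast
        have h5 : (0 : ℝ) ≤ K * Λ := by positivity
        calc (K : ℝ) * (Λ * ms X m b) = K * Λ * ms X m b := by ring
          _ ≤ K * Λ * (c1 * n) := mul_le_mul_of_nonneg_left h3 h5
          _ = (K * Λ * c1) * n := by ring
          _ ≤ Kb * n := mul_le_mul_of_nonneg_right hΛ (by positivity)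
      exact_mod_cast h4
    have hW0 := H462.Wt_nonneg (a := a) (X := X) m b
    have hL0 : 0 < L := by linarith
    -- `L^((K-Ka) n) ≤ Wt^K`
    have h7 : L ^ ((K - Ka) * n) ≤ H462.Wt a X m b ^ K := by
      have h8 := pow_le_pow_left₀ (by positivity) hW K
      rw [mul_pow, ← pow_mul, ← pow_mul] at h8
      have h9 : L ^ (N * K) ≤ L ^ (Ka * n) := pow_le_pow_right₀ hL (by rw [mul_comm]; exact hKN)
      have h10 : L ^ (n * K) = L ^ ((K - Ka) * n) * L ^ (Ka * n) := by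
        rw [← pow_add, ← add_mul, Nat.sub_add_cancel hKa, mul_comm]
      have h11 : L ^ ((K - Ka) * n) * L ^ (Ka * n) ≤ H462.Wt a X m b ^ K * L ^ (Ka * n) := by
        rw [← h10]
        exact h8.trans (mul_le_mul_of_nonneg_left h9 (by positivity))
      exact le_of_mul_le_mul_right h11 (by positivity)
    have h8 : (E ^ n * B ^ (Λ * ms X m b)) ^ K ≤ H462.Wt a X m b ^ K := by
      calc (E ^ n * B ^ (Λ * ms X m b)) ^ K = (E ^ K) ^ n * B ^ (K * (Λ * ms X m b)) := by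
            rw [mul_pow, ← pow_mul, ← pow_mul, ← pow_mul, mul_comm n K,
              mul_comm (Λ * ms X m b) K]
        _ ≤ (E ^ K) ^ n * B ^ (Kb * n) := by gcongr
        _ = (E ^ K * B ^ Kb) ^ n := by rw [mul_pow, ← pow_mul B]
        _ ≤ (L ^ (K - Ka)) ^ n := pow_le_pow_left₀ (by positivity) hEL _
        _ = L ^ ((K - Ka) * n) := by rw [pow_mul]
        _ ≤ _ := h7
    have h9 : E ^ n * B ^ (Λ * ms X m b) ≤ H462.Wt a X m b :=
      le_of_pow_le_pow_left₀ (by omega) hW0 h8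
    have h10 : E ^ n * B ^ (Λ * ms X m b) ≤ |D a m (b - 1)| * B ^ (Λ * ms X m b) := h9.trans h6
    exact le_of_mul_le_mul_right h10 (by positivity)

/-- **[DET-2], right window `[p, b)`, moving end `p - 1`, general exponents.** -/
theorem pre_of_hyp' {B L E κ c0 c1 : ℝ} {Λ K Ka Kb N0 : ℕ} {p b : ℤ}
    (hyp : H462.Hyp a X B Λ c0 p b)
    (hpb : p < b) (hc01 : c0 < 1) (hK : 1 ≤ K) (hKa : Ka ≤ K) (hN0 : 2 ≤ N0)
    (hg : ∀ t, p ≤ t → t < b → t ∉ X → 16 ≤ |a t|)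
    (hB : ∀ t, p ≤ t → t < b → |a t| + 1 ≤ B) (hB1 : 1 ≤ B)
    (hc1 : 0 < c1) (hcc : 10 * N0 * c1 ≤ c0)
    (hRG : ∀ r : ℕ, 1 ≤ r → p + r ≤ b → (ms X p (p + r) : ℝ) ≤ c1 * r)
    (hLG : ∀ r : ℕ, 1 ≤ r → p ≤ b - r → (ms X (b - r) b : ℝ) < c0 * r)
    (hΛ : K * Λ * c1 ≤ Kb)
    (hnc : ∀ j, p < j → j ≤ b → (K * (ms X p j + ms {t | |a t| < 2 * L} p j : ℕ) : ℤ) ≤
      Ka * (j - p))
    (hL : 1 ≤ L) (hE : 1 ≤ E) (hEL : E ^ K * B ^ Kb ≤ L ^ (K - Ka)) (hκ : 0 < κ)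
    (h1 : 1 ≤ κ * E) (h2 : B ≤ (κ * E) ^ N0) :
    Pre a p (b - 1) κ 2 := by
  have h := suf_of_hyp' (a := fun j => a (-j)) (X := {i | -i ∈ X}) (p := 1 - b) (b := 1 - p)
    (hyp_neg hyp) (by omega) hc01 hK hKa hN0 (fun t h3 h4 h5 => hg (-t) (by omega) (by omega) h5)
    (fun t h3 h4 => hB (-t) (by omega) (by omega)) hB1 hc1 hcc
    (fun r hr1 hr2 => ?_) (fun r hr1 hr2 => ?_) hΛ
    (fun i h3 h4 => ?_) hL hE hEL hκ h1 h2
  · rw [suf_reflect] at h
    have e1 : -(1 - p - 1) = p := by ring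
    have e2 : -(1 - b) = b - 1 := by ring
    rwa [e1, e2] at h
  · have h3 := hRG r hr1 (by omega)
    have e1 := ms_neg X p (p + r)
    have e2 : 1 - (p + (r : ℤ)) = 1 - p - r := by ring
    rw [e2] at e1
    rw [e1]
    exact h3
  · have h3 := hLG r hr1 (by omega)
    have e1 := ms_neg X (b - r) b
    have e2 : 1 - (b - (r : ℤ)) = 1 - b + r := by ring
    rw [e2] at e1
    rw [e1]
    exact h3
  · have h5 := hnc (1 - i) (by omega) (by omega)
    have e1 := ms_neg X p (1 - i)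
    have e2 := ms_neg {t | |a t| < 2 * L} p (1 - i)
    rw [sub_sub_cancel] at e1 e2
    have e3 : {i : ℤ | -i ∈ {t : ℤ | |a t| < 2 * L}} = {t | |a (-t)| < 2 * L} := rfl
    rw [e3] at e2
    rw [e1, e2]
    refine h5.trans_eq ?_
    ring

/-- hyperbolicity of the good windows of a `Setting`, with a loss `Λ` per bad time -/
def HypSetting (Λ : ℕ) : Prop :=
  ∃ k0 : ℝ, ∀ k ≥ k0, ∀ (s : ℝ) (a : ℤ → ℝ) (u w : ℤ) (X : Set ℤ), Sk.Setting k s a u w X →
    ∀ i j, u ≤ i → i ≤ j → j < w → Sk.GoodWin X i j →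
      H462.Hyp a X (9 * k) Λ Sk.c0 i (j + 1)

/-- the numerical conditions -/
lemma grow_numerics {k s : ℝ} (hk : 2 ^ 400 ≤ k) (hs0 : 0 ≤ s) :
    16 ≤ k ^ (1 / 100 : ℝ) ∧ 1 ≤ (1 + s) * k ^ (1 - Sk.ce) / 2 ∧ 1 ≤ k ^ (93 / 100 : ℝ) ∧
      (k ^ (93 / 100 : ℝ)) ^ 200 * (9 * k) ^ 1 ≤ ((1 + s) * k ^ (1 - Sk.ce) / 2) ^ (200 - 11) ∧
      0 < k ^ (-(905 / 1000) : ℝ) ∧ 1 ≤ k ^ (-(905 / 1000) : ℝ) * k ^ (93 / 100 : ℝ) ∧
      9 * k ≤ (k ^ (-(905 / 1000) : ℝ) * k ^ (93 / 100 : ℝ)) ^ 60 ∧ 2 ≤ k ^ (1 / 200 : ℝ) := by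
  have h2 : (1 : ℝ) ≤ 2 ^ 400 := one_le_pow₀ (by norm_num)
  have hk1 : 1 ≤ k := h2.trans hk
  have hk0 : 0 < k := lt_of_lt_of_le one_pos hk1
  have hroot : ∀ n : ℕ, 0 < n → (2 : ℝ) ^ (400 / n : ℝ) ≤ k ^ (1 / n : ℝ) := by
    intro n hn
    have h3 : ((2 : ℝ) ^ 400) ^ (1 / n : ℝ) ≤ k ^ (1 / n : ℝ) :=
      Real.rpow_le_rpow (by positivity) hk (by positivity)
    refine le_trans (le_of_eq ?_) h3
    rw [← Real.rpow_natCast, ← Real.rpow_mul (by norm_num)]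
    congr 1
    push_cast
    ring
  have h100 : (16 : ℝ) ≤ k ^ (1 / 100 : ℝ) := by
    have := hroot 100 (by norm_num)
    norm_num at this ⊢
    exact this
  have h200 : (4 : ℝ) ≤ k ^ (1 / 200 : ℝ) := by
    have := hroot 200 (by norm_num)
    norm_num at this ⊢
    exact this
  have hmono : ∀ x y : ℝ, x ≤ y → k ^ x ≤ k ^ y := fun x y h =>
    Real.rpow_le_rpow_of_exponent_le hk1 h
  have hprod : k ^ (-(905 / 1000) : ℝ) * k ^ (93 / 100 : ℝ) = k ^ (1 / 40 : ℝ) := by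
    rw [← Real.rpow_add hk0]; norm_num
  have hLge : k ^ (1 - Sk.ce) / 2 ≤ (1 + s) * k ^ (1 - Sk.ce) / 2 := by
    have h3 : ∀ x : ℝ, 0 < x → x / 2 ≤ (1 + s) * x / 2 := fun x hx => by
      nlinarith only [hx, hs0, mul_nonneg hs0 hx.le]
    exact h3 _ (Real.rpow_pos_of_pos hk0 _)
  have hce : (1 : ℝ) / 200 ≤ 1 - Sk.ce := by unfold Sk.ce; norm_num
  refine ⟨h100, ?_, Real.one_le_rpow hk1 (by norm_num), ?_, Real.rpow_pos_of_pos hk0 _, ?_, ?_,
    by linarith only [h200]⟩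
  · have := hmono _ _ hce
    linarith only [this, hLge, h200]
  · have h9 : (9 : ℝ) ≤ k ^ (1 / 100 : ℝ) := by linarith only [h100]
    have e1 : (k ^ (93 / 100 : ℝ)) ^ 200 = k ^ (186 : ℝ) := by
      rw [← Real.rpow_natCast, ← Real.rpow_mul hk0.le]; norm_num
    have h3 : (k ^ (1 - Sk.ce) / 2) ^ (200 - 11) ≤
        ((1 + s) * k ^ (1 - Sk.ce) / 2) ^ (200 - 11) :=
      pow_le_pow_left₀ (by positivity) hLge _
    refine le_trans ?_ h3
    have h4 : k ^ (1 - 1 / 200 - 1 / 10000 : ℝ) ≤ k ^ (1 - Sk.ce) / 2 := by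
      rw [le_div_iff₀ (by norm_num)]
      calc k ^ (1 - 1 / 200 - 1 / 10000 : ℝ) * 2 ≤
            k ^ (1 - 1 / 200 - 1 / 10000 : ℝ) * k ^ (1 / 200 : ℝ) := by
            gcongr
            linarith only [h200]
        _ = k ^ (1 - Sk.ce) := by
            rw [← Real.rpow_add hk0]
            congr 1
            unfold Sk.ce
            norm_num
    have h5 : (k ^ (1 - 1 / 200 - 1 / 10000 : ℝ)) ^ (200 - 11) ≤
        (k ^ (1 - Sk.ce) / 2) ^ (200 - 11) := pow_le_pow_left₀ (by positivity) h4 _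
    refine le_trans ?_ h5
    have e2 : (k ^ (1 - 1 / 200 - 1 / 10000 : ℝ)) ^ (200 - 11) =
        k ^ ((1 - 1 / 200 - 1 / 10000) * 189 : ℝ) := by
      rw [← Real.rpow_natCast, ← Real.rpow_mul hk0.le]
      norm_num
    rw [e1, e2, pow_one]
    calc k ^ (186 : ℝ) * (9 * k) ≤ k ^ (186 : ℝ) * (k ^ (1 / 100 : ℝ) * k ^ (1 : ℝ)) := by
          rw [Real.rpow_one]
          gcongr
      _ = k ^ (186 + (1 / 100 + 1) : ℝ) := by
          rw [← Real.rpow_add hk0, ← Real.rpow_add hk0]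
      _ ≤ _ := hmono _ _ (by norm_num)
  · rw [hprod]
    exact Real.one_le_rpow hk1 (by norm_num)
  · rw [hprod]
    have e1 : (k ^ (1 / 40 : ℝ)) ^ 60 = k ^ (3 / 2 : ℝ) := by
      rw [← Real.rpow_natCast, ← Real.rpow_mul hk0.le]; norm_num
    rw [e1]
    calc 9 * k ≤ k ^ (1 / 100 : ℝ) * k ^ (1 : ℝ) := by
          rw [Real.rpow_one]
          gcongr
          linarith only [h100]
      _ = k ^ (1 / 100 + 1 : ℝ) := by rw [← Real.rpow_add hk0]
      _ ≤ _ := hmono _ _ (by norm_num)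

lemma grow_final {k x y : ℝ} (hk1 : 1 ≤ k) (h2 : 2 ≤ k ^ (1 / 200 : ℝ)) {n : ℕ}
    (h : x ≤ 2 * (k ^ (-(905 / 1000) : ℝ)) ^ n * y) (h0 : n = 0 → x ≤ y) (hy : 0 ≤ y) :
    k ^ (9 / 10 * (n : ℝ)) * x ≤ y := by
  have hk0 : 0 < k := by linarith
  rcases Nat.eq_zero_or_pos n with hn | hn
  · have := h0 hn
    subst hn
    simpa using this
  · have hkn : 0 < k ^ (9 / 10 * (n : ℝ)) := Real.rpow_pos_of_pos hk0 _
    have e1 : (k ^ (-(905 / 1000) : ℝ)) ^ n = k ^ (-(905 / 1000) * (n : ℝ)) := by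
      rw [← Real.rpow_natCast, ← Real.rpow_mul hk0.le]
    rw [e1] at h
    have h3 : k ^ (9 / 10 * (n : ℝ)) * (2 * k ^ (-(905 / 1000) * (n : ℝ))) ≤ 1 := by
      have h4 : k ^ (9 / 10 * (n : ℝ)) * k ^ (-(905 / 1000) * (n : ℝ)) =
          k ^ (-(1 / 200) * (n : ℝ)) := by
        rw [← Real.rpow_add hk0]
        congr 1
        ring
      have h5 : k ^ (-(1 / 200) * (n : ℝ)) ≤ k ^ (-(1 / 200) : ℝ) := by
        refine Real.rpow_le_rpow_of_exponent_le hk1 ?_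
        have : (1 : ℝ) ≤ n := by exact_mod_cast hn
        nlinarith
      have h6 : k ^ (-(1 / 200) : ℝ) ≤ 1 / 2 := by
        rw [Real.rpow_neg hk0.le, inv_le_comm₀ (by positivity) (by norm_num)]
        norm_num
        norm_num at h2
        exact h2
      calc k ^ (9 / 10 * (n : ℝ)) * (2 * k ^ (-(905 / 1000) * (n : ℝ)))
          = 2 * (k ^ (9 / 10 * (n : ℝ)) * k ^ (-(905 / 1000) * (n : ℝ))) := by ring
        _ = 2 * k ^ (-(1 / 200) * (n : ℝ)) := by rw [h4]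
        _ ≤ 1 := by linarith
    calc k ^ (9 / 10 * (n : ℝ)) * x ≤
          k ^ (9 / 10 * (n : ℝ)) * (2 * k ^ (-(905 / 1000) * (n : ℝ)) * y) :=
          mul_le_mul_of_nonneg_left h hkn.le
      _ = (k ^ (9 / 10 * (n : ℝ)) * (2 * k ^ (-(905 / 1000) * (n : ℝ)))) * y := by ring
      _ ≤ 1 * y := mul_le_mul_of_nonneg_right h3 hy
      _ = y := one_mul y

/-- **[GROW]** from hyperbolicity. -/
theorem detGrow_of_hyp {Λ : ℕ} (hΛ : Λ ≤ 10 ^ 8) (H : HypSetting Λ) : Sk.DetGrow := by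
  obtain ⟨k1, H⟩ := H
  refine ⟨max k1 (2 ^ 400), fun k hk s a u w X hS i j hui hij hjw hgood => ?_⟩
  have hkk1 : k1 ≤ k := (le_max_left _ _).trans hk
  have hk2 : (2 : ℝ) ^ 400 ≤ k := (le_max_right _ _).trans hk
  have h21 : (1 : ℝ) ≤ 2 ^ 400 := one_le_pow₀ (by norm_num)
  have hk1 : 1 ≤ k := h21.trans hk2
  obtain ⟨n1, n2, n3, n4, n5, n6, n7, n8⟩ := grow_numerics hk2 hS.hs0
  have hyp := H k hkk1 s a u w X hS i j hui hij hjw hgood
  have hc0 : Sk.c0 < 1 := by unfold Sk.c0; norm_num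
  have hc1 : 0 < Sk.c1 := by unfold Sk.c1 Sk.cc; norm_num
  have hcc : 10 * (60 : ℕ) * Sk.c1 ≤ Sk.c0 := by unfold Sk.c1 Sk.cc Sk.c0; norm_num
  have hg : ∀ t, i ≤ t → t < j + 1 → t ∉ X → 16 ≤ |a t| := by
    intro t h1 h2 h3
    by_contra hcon
    have h4 : t ∈ Sk.Crit k s a := by
      change |a t| < (1 + s) * k ^ Sk.cβ
      have : (16 : ℝ) ≤ k ^ Sk.cβ := n1
      have h5 := hS.hs0
      push Not at hcon
      nlinarith only [this, h5, hcon]
    apply h3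
    apply hS.bad
    refine ⟨⟨t, Sk.s0 k, Or.inl ⟨rfl, h4⟩, by simp⟩, ?_, ?_⟩
    · omega
    · omega
  have hB : ∀ t, i ≤ t → t < j + 1 → |a t| + 1 ≤ 9 * k := by
    intro t _ _
    linarith only [hS.bd t, hk1]
  have hΛ' : ((200 : ℕ) : ℝ) * Λ * Sk.c1 ≤ ((1 : ℕ) : ℝ) := by
    have : (Λ : ℝ) ≤ 10 ^ 8 := by exact_mod_cast hΛ
    unfold Sk.c1 Sk.cc
    push_cast
    linarith only [this]
  set L := (1 + s) * k ^ (1 - Sk.ce) / 2 with hL
  have hNC : {t | |a t| < 2 * L} = Sk.NC k s a := by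
    ext t
    change |a t| < 2 * L ↔ |a t| < (1 + s) * k ^ (1 - Sk.ce)
    have e : 2 * L = (1 + s) * k ^ (1 - Sk.ce) := by rw [hL]; ring
    rw [e]
  have hcount : ∀ x y n : ℕ, 1 ≤ n → (x : ℝ) ≤ Sk.c1 * n → (y : ℝ) < 1 / 20 * n →
      (200 * (x + y : ℕ) : ℤ) ≤ 11 * n := by
    intro x y n hn hx hy
    have h1 : (200 * (x + y : ℕ) : ℝ) ≤ 11 * n := by
      have hnn : (1 : ℝ) ≤ n := by exact_mod_cast hn
      unfold Sk.c1 Sk.cc at hx
      push_cast
      norm_num at hx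
      linarith only [hx, hy, hnn]
    exact_mod_cast h1
  constructor
  · intro hend m hm1 hm2
    have hsuf : Suf a i (j + 1 - 1) (k ^ (-(905 / 1000) : ℝ)) 2 := by
      refine suf_of_hyp' (B := 9 * k) (L := L) (E := k ^ (93 / 100 : ℝ)) (c0 := Sk.c0)
        (c1 := Sk.c1) (Λ := Λ) (K := 200) (Ka := 11) (Kb := 1) (N0 := 60) hyp (by omega) hc0
        (by norm_num) (by norm_num) (by norm_num) hg hB (by linarith only [hk1]) hc1 hcc
        (fun r hr1 hr2 => (hend r hr1 (by omega)).1)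
        (fun r hr1 hr2 => (hgood r hr1 hr2).1) hΛ' (fun t ht1 ht2 => ?_) n2 n3 n4 n5 n6 n7
      obtain ⟨n, hn⟩ : ∃ n : ℕ, (n : ℤ) = j + 1 - t := ⟨(j + 1 - t).toNat, by omega⟩
      have h1 := hend n (by omega) (by omega)
      have e : j + 1 - (n : ℤ) = t := by omega
      rw [e] at h1
      rw [hNC, ← hn]
      exact hcount _ _ n (by omega) h1.1 h1.2
    rw [add_sub_cancel_right] at hsuf
    obtain ⟨n, hn⟩ : ∃ n : ℕ, (n : ℤ) = j + 1 - m := ⟨(j + 1 - m).toNat, by omega⟩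
    have h1 := hsuf.2 m hm1 hm2
    have e : (j + 1 - m).toNat = n := by omega
    rw [e] at h1
    rw [← hn]
    refine grow_final hk1 n8 h1 (fun h0 => ?_) (abs_nonneg _)
    have : m - 1 = j := by omega
    rw [this]
  · intro hend m hm1 hm2
    have hpre : Pre a i (j + 1 - 1) (k ^ (-(905 / 1000) : ℝ)) 2 := by
      refine pre_of_hyp' (B := 9 * k) (L := L) (E := k ^ (93 / 100 : ℝ)) (c0 := Sk.c0)
        (c1 := Sk.c1) (Λ := Λ) (K := 200) (Ka := 11) (Kb := 1) (N0 := 60) hyp (by omega) hc0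
        (by norm_num) (by norm_num) (by norm_num) hg hB (by linarith only [hk1]) hc1 hcc
        (fun r hr1 hr2 => (hend r hr1 hr2).1)
        (fun r hr1 hr2 => (hgood r hr1 (by omega)).2) hΛ' (fun t ht1 ht2 => ?_) n2 n3 n4 n5 n6 n7
      obtain ⟨n, hn⟩ : ∃ n : ℕ, (n : ℤ) = t - i := ⟨(t - i).toNat, by omega⟩
      have h1 := hend n (by omega) (by omega)
      have e : i + (n : ℤ) = t := by omega
      rw [e] at h1
      rw [hNC, ← hn]
      exact hcount _ _ n (by omega) h1.1 h1.2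
    rw [add_sub_cancel_right] at hpre
    obtain ⟨n, hn⟩ : ∃ n : ℕ, (n : ℤ) = m - i := ⟨(m - i).toNat, by omega⟩
    have h1 := hpre.2 (m - 1) (by omega) (by omega)
    have e : (m - 1 - i + 1).toNat = n := by omega
    rw [e, sub_add_cancel] at h1
    rw [← hn]
    refine grow_final hk1 n8 h1 (fun h0 => ?_) (abs_nonneg _)
    have : m = i := by omega
    rw [this]

end Vale.Agent.P108.H504
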