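import Vale.Agent.P108.H504.GrowFinal
import Vale.Agent.P108.H972.SkDecor
import Vale.Agent.P108.Sk.Final

/-! # Composition: Decor unconditional; the main theorem needs only `ZoneAt`. -/

open MeasureTheory Filter Set Topology

namespace Vale.Agent.P108.H504

open Vale.Agent.P108 Vale.Agent.P108.Dyn

/-- **[Decor]**, unconditional -/
theorem decor : Sk.Decor := H972.decor_of H18.freeze_of detGrow Sk.longCl

/-- everything except [ZONE] -/
theorem main_of_zone
    (hZ : ∃ c1 : ℝ, 0 < c1 ∧ ∀ᶠ k in atTop, H442.ZoneAt k c1 Sk.cb Sk.cβ) :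
    ∃ k0 : ℝ, ∀ k ≥ k0, 99 / 100 * Real.log k ≤ ent k ∧ 0 < ent k ∧
      0 < volume {z | z ∈ Q ∧ 0 < lyap k z} :=
  Sk.main_of hZ H462.detCone decor

end Vale.Agent.P108.H504
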