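import Vale.Agent.P108.H504.Compose
import Vale.Agent.P108.H850.ZoneAt

/-! # Composition: the main theorem, unconditional. -/

open MeasureTheory Filter Set Topology

namespace Vale.Agent.P108.H504

open Vale.Agent.P108 Vale.Agent.P108.Dyn

lemma zone : ∃ c1 : ℝ, 0 < c1 ∧ ∀ᶠ k in atTop, H442.ZoneAt k c1 Sk.cb Sk.cβ := by
  have h := H850.zone_eventually
  simpa [Sk.cb, Sk.cβ] using h

/-- **main theorem** -/
theorem sinai_pos : ∃ k0 : ℝ, ∀ k ≥ k0, 99 / 100 * Real.log k ≤ ent k ∧ 0 < ent k ∧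
      0 < volume {z | z ∈ Q ∧ 0 < lyap k z} :=
  main_of_zone zone

end Vale.Agent.P108.H504
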