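import Vale.Agent.P108.Cmb.Comp
import Vale.Agent.P108.Cmb.Main

/-!
# P108: two-sided good cuts near a given point
-/

open Set
open scoped Classical

namespace Vale.Agent.P108.H504

open P108C

/-- windows good at both ends: `[i, j]` -/
def GoodW (c0 : ℝ) (X : Set ℤ) (i j : ℤ) : Prop :=
  (∀ r : ℕ, 1 ≤ r → i + r ≤ j + 1 → (ms X i (i + r) : ℝ) < c0 * r) ∧
    (∀ r : ℕ, 1 ≤ r → i ≤ j + 1 - r → (ms X (j + 1 - r) (j + 1) : ℝ) < c0 * r)

/-- **Two-sided good cuts.** If everything to the left of `b` (inside `[p, b)`) is `c'`-sparse at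
`b`, then close to `m < b` there is a two-sided `c0`-good cut `m'`. -/
theorem exists_cut {c' c0 : ℝ} (hc' : 0 < c') {N0 : ℕ} (hN0 : 2 ≤ N0) (h5 : 5 * N0 * c' ≤ c0)
    {X : Set ℤ} {p b m : ℤ} (hmb : m < b) (hpm : p ≤ m - (b - m) / N0)
    (hsp : ∀ r : ℕ, 1 ≤ r → p ≤ b - r → (ms X (b - r) b : ℝ) < c' * r) :
    ∃ m', m - (b - m) / N0 ≤ m' ∧ m' ≤ m ∧
      (∀ r : ℕ, 1 ≤ r → p ≤ m' - r → (ms X (m' - r) m' : ℝ) < c0 * r) ∧
      (∀ r : ℕ, 1 ≤ r → m' + r ≤ b → (ms X m' (m' + r) : ℝ) < c0 * r) := by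
  have hN0r : (2 : ℝ) ≤ N0 := by exact_mod_cast hN0
  have hN0p : (0 : ℤ) < N0 := by omega
  have hc0 : 0 < c0 := by nlinarith
  obtain ⟨y, hy⟩ : ∃ y : ℕ, (y : ℤ) = b - m := ⟨(b - m).toNat, by omega⟩
  have hy1 : 1 ≤ y := by omega
  have hyr : (1 : ℝ) ≤ y := by exact_mod_cast hy1
  set L : ℕ := y / N0 with hL
  have hLe : (b - m) / (N0 : ℤ) = (L : ℤ) := by rw [← hy, hL]; push_cast; rfl
  rw [hLe] at hpm ⊢
  clear hLe
  have hLy : L + 1 ≤ y := by
    rcases Nat.lt_or_ge y 2 with h | h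
    · have : y = 1 := by omega
      rw [hL, this, Nat.div_eq_of_lt (by omega)]
    · have h1 : L ≤ y / 2 := Nat.div_le_div_left hN0 (by norm_num)
      omega
  have hLlt : (y : ℝ) < N0 * (L + 1) := by
    have h1 : y < N0 * (L + 1) := by
      rw [hL]
      exact Nat.lt_mul_div_succ y (by omega)
    exact_mod_cast h1
  clear hL
  clear_value L
  set S : Set ℤ := X ∩ Ico p b with hS
  have hpb : p < b := by omega
  -- sparseness of `S` at all scales
  have hSsp : ∀ r : ℕ, 1 ≤ r → (ms S (b - r) b : ℝ) < c' * r := by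
    intro r hr
    rcases le_or_gt p (b - r) with h | h
    · exact lt_of_le_of_lt (Nat.cast_le.2 (ms_mono inter_subset_left _ _)) (hsp r hr h)
    · obtain ⟨r', hr'⟩ : ∃ r' : ℕ, (r' : ℤ) = b - p := ⟨(b - p).toNat, by omega⟩
      have h1 := hsp r' (by omega) (by omega)
      have e : b - (r' : ℤ) = p := by omega
      rw [e] at h1
      have h2 : ms S (b - r) b = ms S (b - r) p + ms S p b := ms_add (by omega) (by omega)
      have h3 : ms S (b - r) p = 0 := ms_eq_zero fun i _ h4 h5 => by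
        have := h5.2.1
        omega
      rw [h2, h3, zero_add]
      have h4 : (ms S p b : ℝ) ≤ ms X p b := Nat.cast_le.2 (ms_mono inter_subset_left _ _)
      have h5 : (r' : ℝ) ≤ r := by
        have : (r' : ℤ) ≤ r := by omega
        exact_mod_cast this
      nlinarith
  by_contra hcon
  push Not at hcon
  -- all candidates are bad
  have hbad : ∀ m', m - L ≤ m' → m' < m + 1 → m' ∈ dl c0 y S ∨ m' - 1 ∈ dr c0 (2 * y) S := by
    intro m' h1 h2
    by_cases hl : ∀ r : ℕ, 1 ≤ r → p ≤ m' - r → (ms X (m' - r) m' : ℝ) < c0 * r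
    · obtain ⟨r, hr1, hr2, hr3⟩ := hcon m' h1 (by omega) hl
      right
      refine ⟨r, hr1, by omega, ?_⟩
      rw [sub_add_cancel]
      refine hr3.trans (Nat.cast_le.2 (ms_le_of fun i h3 h4 h5 => ⟨h5, ?_, ?_⟩))
      · omega
      · omega
    · push Not at hl
      obtain ⟨r, hr1, hr2, hr3⟩ := hl
      left
      have h3 : (ms X (m' - r) m' : ℝ) ≤ ms S (m' - r) m' :=
        Nat.cast_le.2 (ms_le_of fun i h3 h4 h5 => ⟨h5, by omega, by omega⟩)
      rcases le_or_gt r y with hry | hry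
      · exact ⟨r, hr1, hry, hr3.trans h3⟩
      · exfalso
        obtain ⟨t, ht⟩ : ∃ t : ℕ, (t : ℤ) = b - (m' - r) := ⟨(b - (m' - r)).toNat, by omega⟩
        have h4 := hSsp t (by omega)
        have e : b - (t : ℤ) = m' - r := by omega
        rw [e] at h4
        have h5 : (ms S (m' - r) m' : ℝ) ≤ ms S (m' - r) b :=
          Nat.cast_le.2 (ms_mono' le_rfl (by omega))
        have h6 : (t : ℝ) ≤ 3 * r := by
          have : (t : ℤ) ≤ 3 * r := by omega
          exact_mod_cast this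
        have h7 : c0 * r < c' * (3 * r) := by
          calc c0 * r ≤ ms S (m' - r) b := hr3.trans (h3.trans h5)
            _ < c' * t := h4
            _ ≤ c' * (3 * r) := mul_le_mul_of_nonneg_left h6 hc'.le
        have hr0 : (0 : ℝ) < r := by exact_mod_cast (by omega : 0 < r)
        nlinarith
  have hcl := count_dl hc0 y S (m - L - 1) (L + 1)
  have hcr := count_dr hc0 (2 * y) S m (L + 1)
  have e1 : m - (L : ℤ) - 1 + 1 = m - L := by ring
  have e2 : m - (L : ℤ) + ((L + 1 : ℕ) : ℤ) = m + 1 := by push_cast; ring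
  have e3 : m - (L : ℤ) - 1 + ((L + 1 : ℕ) : ℤ) = m := by push_cast; ring
  rw [e1, e2, e3] at hcl
  have e4 : m - ((L + 1 : ℕ) : ℤ) = m - L - 1 := by push_cast; ring
  rw [e4, e1] at hcr
  -- total count
  have hcount : L + 1 ≤ ms (dl c0 y S) (m - L) (m + 1) + ms (dr c0 (2 * y) S) (m - L - 1) m := by
    have h1 : ms (dr c0 (2 * y) S) (m - L - 1) m =
        ms {i | i - 1 ∈ dr c0 (2 * y) S} (m - L) (m + 1) := by
      have := ms_shift (dr c0 (2 * y) S) (-1) (m - L) (m + 1)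
      have e5 : m - (L : ℤ) + -1 = m - L - 1 := by ring
      have e6 : m + 1 + -1 = m := by ring
      rw [e5, e6] at this
      rw [← this]
      rfl
    rw [h1]
    have h2 : (ms (dl c0 y S ∪ {i | i - 1 ∈ dr c0 (2 * y) S}) (m - L) (m + 1) : ℤ) =
        m + 1 - (m - L) :=
      ms_eq_length (by omega) fun i h3 h4 => hbad i h3 h4
    have h3 := ms_union_le (X := dl c0 y S) (Y := {i | i - 1 ∈ dr c0 (2 * y) S}) (m - L) (m + 1)
    omega
  have hb1 : (ms S (m - L - 1 - y) m : ℝ) < c' * (3 * y) := by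
    have h1 := hSsp (3 * y) (by omega)
    push_cast at h1
    refine lt_of_le_of_lt (Nat.cast_le.2 (ms_mono' ?_ ?_)) h1
    · omega
    · omega
  have hb2 : (ms S (m - L) (m + (2 * y : ℕ)) : ℝ) < c' * (2 * y) := by
    have h1 := hSsp (2 * y) (by omega)
    push_cast at h1
    have h2 : ms S (m - L) (m + (2 * y : ℕ)) = ms S (m - L) b + ms S b (m + (2 * y : ℕ)) :=
      ms_add (by omega) (by push_cast; omega)
    have h3 : ms S b (m + (2 * y : ℕ)) = 0 := ms_eq_zero fun i h4 _ h5 => by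
      have := h5.2.2
      omega
    rw [h2, h3, add_zero]
    refine lt_of_le_of_lt (Nat.cast_le.2 (ms_mono' ?_ le_rfl)) h1
    omega
  have hcount' : ((L : ℝ) + 1) ≤ ms (dl c0 y S) (m - L) (m + 1) +
      ms (dr c0 (2 * y) S) (m - L - 1) m := by exact_mod_cast hcount
  have h6 : c0 * (L + 1) < c' * (5 * y) := by
    calc c0 * (L + 1) ≤ c0 * (ms (dl c0 y S) (m - L) (m + 1) +
          ms (dr c0 (2 * y) S) (m - L - 1) m) := mul_le_mul_of_nonneg_left hcount' hc0.le
      _ = c0 * ms (dl c0 y S) (m - L) (m + 1) + c0 * ms (dr c0 (2 * y) S) (m - L - 1) m := by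
          ring
      _ ≤ ms S (m - L - 1 - y) m + ms S (m - L) (m + (2 * y : ℕ)) := add_le_add hcl hcr
      _ < c' * (3 * y) + c' * (2 * y) := add_lt_add hb1 hb2
      _ = c' * (5 * y) := by ring
  have h7 : c' * (5 * y) ≤ c0 * (L + 1) := by
    have h8 : c' * (5 * (N0 * (L + 1))) ≤ c0 * (L + 1) := by
      have : (0 : ℝ) ≤ L + 1 := by positivity
      nlinarith
    nlinarith
  linarith

end Vale.Agent.P108.H504
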