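import Vale.Agent.P108.H504.Cut
import Vale.Agent.P108.H504.Mirror

/-!
# P108: suffix growth at every site from growth at good windows
-/

open Set

namespace Vale.Agent.P108.H504

open P108C

variable {a : ℤ → ℝ} {p q : ℤ}

/-- good cut: the determinant of the whole window dominates the product -/
lemma mul_le_of_cut {i m j : ℤ} (h1 : i ≤ m - 1) (h2 : m ≤ j)
    (hl : |D a i (m - 2)| ≤ 1 / 2 * |D a i (m - 1)|)
    (hr : |D a (m + 1) j| ≤ 1 / 2 * |D a m j|) :
    |D a i (m - 1)| * |D a m j| ≤ 4 / 3 * |D a i j| := by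
  have h := D_concat a (p := i) (q := j) (j := m - 1) (by omega) (by omega)
  have e1 : m - 1 + 1 = m := by ring
  have e2 : m - 1 - 1 = m - 2 := by ring
  have e3 : m - 1 + 2 = m + 1 := by ring
  rw [e1, e2, e3] at h
  have h3 : |D a i (m - 2)| * |D a (m + 1) j| ≤
      (1 / 2 * |D a i (m - 1)|) * (1 / 2 * |D a m j|) :=
    mul_le_mul hl hr (abs_nonneg _) (by positivity)
  have h4 : |D a i (m - 1)| * |D a m j| ≤ |D a i j| + |D a i (m - 2)| * |D a (m + 1) j| := by
    rw [← abs_mul, ← abs_mul, h]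
    have := abs_add_le (D a i (m - 1) * D a m j - D a i (m - 2) * D a (m + 1) j)
      (D a i (m - 2) * D a (m + 1) j)
    rwa [sub_add_cancel] at this
  linarith

/-- **Suffix growth at all sites** from end ratios of good windows and the growth of good windows
ending at `q`. -/
theorem suf_of_det {X : Set ℤ} {c' c0 M E κ : ℝ} {N0 : ℕ} (hc' : 0 < c') (hN0 : 2 ≤ N0)
    (h5 : 5 * N0 * c' ≤ c0) (hM : 1 ≤ M) (ha : ∀ j, p ≤ j → j ≤ q → |a j| + 1 ≤ M)
    (hE : 1 ≤ E) (hκ : 0 < κ) (h1 : 1 ≤ κ * E) (h2 : M ≤ (κ * E) ^ N0) (hpq : p ≤ q)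
    (hsp : ∀ r : ℕ, 1 ≤ r → p ≤ q + 1 - r → (ms X (q + 1 - r) (q + 1) : ℝ) < c' * r)
    (hp : ∀ r : ℕ, 1 ≤ r → p + r ≤ q + 1 → (ms X p (p + r) : ℝ) < c0 * r)
    (hR : ∀ i j, p ≤ i → i ≤ j → j ≤ q → GoodW c0 X i j → D a i j ≠ 0 ∧
      |D a i (j - 1)| ≤ 1 / 2 * |D a i j| ∧ |D a (i + 1) j| ≤ 1 / 2 * |D a i j|)
    (hG : ∀ m, p ≤ m → m ≤ q → GoodW c0 X m q → E ^ (q + 1 - m).toNat ≤ |D a m q|) :
    Suf a p q κ 2 := by
  have hN0r : (2 : ℝ) ≤ N0 := by exact_mod_cast hN0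
  have hcc : c' ≤ c0 := by nlinarith
  have hq : ∀ m, p ≤ m → ∀ r : ℕ, 1 ≤ r → m ≤ q + 1 - r →
      (ms X (q + 1 - r) (q + 1) : ℝ) < c0 * r := by
    intro m hm r hr1 hr2
    have := hsp r hr1 (by omega)
    have hr0 : (0 : ℝ) < r := by exact_mod_cast (by omega : 0 < r)
    nlinarith
  have hgood : GoodW c0 X p q := ⟨hp, hq p le_rfl⟩
  have hE0 : 0 < E := by linarith
  have hDpq := hR p q le_rfl hpq le_rfl hgood
  refine ⟨hDpq.1, fun m hm1 hm2 => ?_⟩
  have hD0 : 0 < |D a p q| := abs_pos.2 hDpq.1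
  rcases eq_or_lt_of_le hm2 with h | hm3
  · rw [h]
    have e : (q + 1 - (q + 1)).toNat = 0 := by simp
    rw [e, pow_zero, add_sub_cancel_right]
    linarith
  -- `y = q + 1 - m`
  obtain ⟨y, hy⟩ : ∃ y : ℕ, (y : ℤ) = q + 1 - m := ⟨(q + 1 - m).toNat, by omega⟩
  have hy' : (q + 1 - m).toNat = y := by omega
  rw [hy']
  -- `M ^ (y / N0) ≤ (κ E) ^ y`
  have hML : ∀ l : ℕ, l ≤ y / N0 → M ^ l ≤ (κ * E) ^ y := by
    intro l hl
    calc M ^ l ≤ ((κ * E) ^ N0) ^ l := pow_le_pow_left₀ (by linarith) h2 _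
      _ = (κ * E) ^ (N0 * l) := by rw [pow_mul]
      _ ≤ (κ * E) ^ y := pow_le_pow_right₀ h1 (by
          have := Nat.mul_le_mul_left N0 hl
          exact this.trans (Nat.mul_div_le y N0))
  have hLe : (q + 1 - m) / (N0 : ℤ) = ((y / N0 : ℕ) : ℤ) := by rw [← hy]; push_cast; rfl
  by_cases hcase : p ≤ m - (q + 1 - m) / N0
  · obtain ⟨m', hm'1, hm'2, hm'3, hm'4⟩ := exists_cut hc' hN0 h5 (X := X) (p := p) (b := q + 1)
      (m := m) hm3 hcase hsp
    rw [hLe] at hm'1 hcase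
    have hgr : GoodW c0 X m' q := ⟨fun r hr1 hr2 => hm'4 r hr1 hr2, hq m' (by omega)⟩
    have hEm : E ^ y ≤ |D a m' q| := by
      refine le_trans (pow_le_pow_right₀ hE ?_) (hG m' (by omega) (by omega) hgr)
      omega
    rcases eq_or_lt_of_le (show p ≤ m' by omega) with hpm | hpm
    · -- `m' = p`
      have h3 := abs_D_le (a := a) (p := p) (q := m - 1) hM fun j h3 h4 => ha j h3 (by omega)
      rw [← hpm] at hEm
      have h4 : (m - 1 + 1 - p).toNat ≤ y / N0 := by omega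
      calc |D a p (m - 1)| ≤ M ^ (m - 1 + 1 - p).toNat := h3
        _ ≤ (κ * E) ^ y := hML _ h4
        _ = κ ^ y * E ^ y := mul_pow _ _ _
        _ ≤ κ ^ y * |D a p q| := mul_le_mul_of_nonneg_left hEm (by positivity)
        _ ≤ 2 * κ ^ y * |D a p q| := by
            have : 0 ≤ κ ^ y * |D a p q| := by positivity
            linarith
    · have hgl : GoodW c0 X p (m' - 1) := by
        refine ⟨fun r hr1 hr2 => hp r hr1 (by omega), fun r hr1 hr2 => ?_⟩
        rw [sub_add_cancel] at hr2 ⊢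
        exact hm'3 r hr1 hr2
      obtain ⟨hl0, hl1, -⟩ := hR p (m' - 1) le_rfl (by omega) (by omega) hgl
      obtain ⟨hr0, -, hr1⟩ := hR m' q (by omega) (by omega) le_rfl hgr
      have e2 : m' - 1 - 1 = m' - 2 := by ring
      rw [e2] at hl1
      have h3 := mul_le_of_cut (a := a) (i := p) (m := m') (j := q) (by omega) (by omega) hl1 hr1
      -- `|D p (m-1)| ≤ (3/2) M^L |D p (m'-1)|`
      have h4 : |D a p (m - 1)| ≤ 3 / 2 * (κ * E) ^ y * |D a p (m' - 1)| := by
        have h5 := D_concat a (p := p) (q := m - 1) (j := m' - 1) (by omega) (by omega)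
        have e1 : m' - 1 + 1 = m' := by ring
        have e3 : m' - 1 + 2 = m' + 1 := by ring
        rw [e1, e2, e3] at h5
        have h6 := abs_D_le (a := a) (p := m') (q := m - 1) hM fun j h3 h4 =>
          ha j (by omega) (by omega)
        have h7 := abs_D_le (a := a) (p := m' + 1) (q := m - 1) hM fun j h3 h4 =>
          ha j (by omega) (by omega)
        have h8 := h6.trans (hML _ (by omega))
        have h9 := h7.trans (hML _ (by omega))
        rw [h5]
        calc |D a p (m' - 1) * D a m' (m - 1) - D a p (m' - 2) * D a (m' + 1) (m - 1)|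
            ≤ |D a p (m' - 1)| * |D a m' (m - 1)| +
                |D a p (m' - 2)| * |D a (m' + 1) (m - 1)| := by
              rw [← abs_mul, ← abs_mul]; exact abs_sub _ _
          _ ≤ |D a p (m' - 1)| * (κ * E) ^ y + (1 / 2 * |D a p (m' - 1)|) * (κ * E) ^ y := by
              gcongr
          _ = _ := by ring
      have h5 : |D a p (m' - 1)| * E ^ y ≤ 4 / 3 * |D a p q| :=
        (mul_le_mul_of_nonneg_left hEm (abs_nonneg _)).trans h3
      calc |D a p (m - 1)| ≤ 3 / 2 * (κ * E) ^ y * |D a p (m' - 1)| := h4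
        _ = 3 / 2 * κ ^ y * (|D a p (m' - 1)| * E ^ y) := by rw [mul_pow]; ring
        _ ≤ 3 / 2 * κ ^ y * (4 / 3 * |D a p q|) := by gcongr
        _ = 2 * κ ^ y * |D a p q| := by ring
  · rw [hLe] at hcase
    have h3 := abs_D_le (a := a) (p := p) (q := m - 1) hM fun j h3 h4 => ha j h3 (by omega)
    have h4 : (m - 1 + 1 - p).toNat ≤ y / N0 := by omega
    have hEm : E ^ y ≤ |D a p q| := by
      refine le_trans (pow_le_pow_right₀ hE ?_) (hG p le_rfl hpq hgood)
      omega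
    calc |D a p (m - 1)| ≤ M ^ (m - 1 + 1 - p).toNat := h3
      _ ≤ (κ * E) ^ y := hML _ h4
      _ = κ ^ y * E ^ y := mul_pow _ _ _
      _ ≤ κ ^ y * |D a p q| := mul_le_mul_of_nonneg_left hEm (by positivity)
      _ ≤ 2 * κ ^ y * |D a p q| := by
          have : 0 ≤ κ ^ y * |D a p q| := by positivity
          linarith

end Vale.Agent.P108.H504
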