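import Vale.Agent.P108.H504.Det2
import Vale.Agent.P108.H462.Growth

/-!
# P108, [DET-2]: suffix growth `Suf` and prefix growth `Pre` from helper462's `Hyp`
-/

open Set

namespace Vale.Agent.P108.H504

open P108C

variable {a : ℤ → ℝ} {X : Set ℤ}

/-! ### bridge between the two conventions -/

lemma W_eq_S (a : ℤ → ℝ) (i : ℤ) : ∀ n : ℕ, H462.W a i n = S a i n
  | 0 => rfl
  | 1 => rfl
  | (n + 2) => by
    rw [H462.W, S_succ, W_eq_S a i (n + 1), W_eq_S a i n]

/-- `H462.D a i j` is the determinant of `[i, j)`. -/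
lemma D462_eq (a : ℤ → ℝ) (i j : ℤ) : H462.D a i j = D a i (j - 1) := by
  unfold H462.D D
  rw [W_eq_S]
  congr 2
  ring

lemma GoodW.good462 {c0 : ℝ} {i j : ℤ} (h : GoodW c0 X i j) : H462.Good c0 X i (j + 1) := by
  constructor
  · intro r h1 h2
    have h3 := h.1 (r - i).toNat (by omega) (by omega)
    have e : i + ((r - i).toNat : ℤ) = r := by omega
    rw [e] at h3
    have e2 : (((r - i).toNat : ℕ) : ℝ) = ((r - i : ℤ) : ℝ) := by
      have : (((r - i).toNat : ℕ) : ℤ) = r - i := by omega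
      exact_mod_cast this
    rw [e2] at h3
    exact h3.le
  · intro r h1 h2
    have h3 := h.2 (j + 1 - r).toNat (by omega) (by omega)
    have e : j + 1 - ((j + 1 - r).toNat : ℤ) = r := by omega
    rw [e] at h3
    have e2 : (((j + 1 - r).toNat : ℕ) : ℝ) = ((j + 1 - r : ℤ) : ℝ) := by
      have : (((j + 1 - r).toNat : ℕ) : ℤ) = j + 1 - r := by omega
      exact_mod_cast this
    rw [e2] at h3
    exact h3.le

/-- lower bound of the weight of a window with few bad times -/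
lemma le_Wt {L : ℝ} (hL : 1 ≤ L) {u v : ℤ}
    (huv : u ≤ v) (h2 : ∀ t, u ≤ t → t < v → t ∉ X → 2 ≤ |a t|) :
    L ^ (v - u).toNat ≤
      H462.Wt a X u v * L ^ (ms X u v + ms {t | |a t| < 2 * L} u v) := by
  classical
  obtain ⟨n, rfl⟩ := Int.le.dest huv
  have hn : (u + (n : ℤ) - u).toNat = n := by omega
  rw [hn]
  clear hn huv
  induction n with
  | zero =>
    simp only [Nat.cast_zero, add_zero, pow_zero]
    rw [H462.Wt_empty le_rfl, one_mul]
    exact one_le_pow₀ hL
  | succ n ih =>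
    have i1 := ih fun t ht1 ht2 => h2 t ht1 (by push_cast; omega)
    have e1 : u + ((n + 1 : ℕ) : ℤ) = u + (n : ℤ) + 1 := by push_cast; ring
    rw [e1, H462.Wt_succ (by omega), H462.ms_succ (by omega), H462.ms_succ (by omega), pow_succ]
    have hW := H462.Wt_nonneg (a := a) (X := X) u (u + n)
    have hL0 : 0 < L := by linarith
    have hw1 : L ≤ H462.wt a X (u + n) * L ^ ((if u + (n : ℤ) ∈ X then 1 else 0) +
        (if u + (n : ℤ) ∈ {t | |a t| < 2 * L} then 1 else 0) : ℕ) := by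
      unfold H462.wt
      by_cases hx : u + (n : ℤ) ∈ X
      · simp only [if_pos hx, one_mul]
        calc L = L ^ 1 := (pow_one L).symm
          _ ≤ _ := pow_le_pow_right₀ hL (by omega)
      · have h3 := h2 (u + n) (by omega) (by push_cast; omega) hx
        simp only [if_neg hx, zero_add]
        by_cases hs : u + (n : ℤ) ∈ {t | |a t| < 2 * L}
        · rw [if_pos hs, pow_one]
          nlinarith
        · rw [if_neg hs, pow_zero, mul_one]
          rw [mem_ofPred_eq, not_lt] at hs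
          linarith
    calc L ^ n * L ≤ (H462.Wt a X u (u + n) *
          L ^ (ms X u (u + n) + ms {t | |a t| < 2 * L} u (u + n))) *
          (H462.wt a X (u + n) * L ^ ((if u + (n : ℤ) ∈ X then 1 else 0) +
            (if u + (n : ℤ) ∈ {t | |a t| < 2 * L} then 1 else 0) : ℕ)) :=
          mul_le_mul i1 hw1 hL0.le (by positivity)
      _ = _ := by
          have e2 : ms X u (u + n) + (if u + (n : ℤ) ∈ X then 1 else 0) +
              (ms {t | |a t| < 2 * L} u (u + n) +
                (if u + (n : ℤ) ∈ {t | |a t| < 2 * L} then 1 else 0)) =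
              (ms X u (u + n) + ms {t | |a t| < 2 * L} u (u + n)) +
              ((if u + (n : ℤ) ∈ X then 1 else 0) +
                (if u + (n : ℤ) ∈ {t | |a t| < 2 * L} then 1 else 0)) := by ring
          rw [e2, pow_add L (ms X u (u + n) + ms {t | |a t| < 2 * L} u (u + n))]
          ring

/-- **[DET-2], left window.** -/
theorem suf_of_hyp {B L E κ c0 c1 : ℝ} {Λ K : ℕ} {p b : ℤ} (hyp : H462.Hyp a X B Λ c0 p b)
    (hpb : p < b) (hc01 : c0 < 1) (hK : 2 ≤ K)
    (hg : ∀ t, p ≤ t → t < b → t ∉ X → 16 ≤ |a t|)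
    (hB : ∀ t, p ≤ t → t < b → |a t| + 1 ≤ B) (hB1 : 1 ≤ B)
    (hc1 : 0 < c1) (hcc : 10 * K * c1 < c0) (hLG : H462.LG c1 X p b)
    (hRG : H462.RG (c0 / 2) X p b) (hΛ : K * Λ * c1 ≤ 1)
    (hnc : ∀ i, p ≤ i → i < b → (K * (ms X i b + ms {t | |a t| < 2 * L} i b : ℕ) : ℤ) ≤ b - i)
    (hL : 1 ≤ L) (hE : 1 ≤ E) (hEL : E ^ K * B ≤ L ^ (K - 1)) (hκ : 0 < κ) (h1 : 1 ≤ κ * E)
    (h2 : B ≤ (κ * E) ^ K) :
    Suf a p (b - 1) κ 2 := by
  have hKr : (2 : ℝ) ≤ K := by exact_mod_cast hK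
  have hc0 : 0 < c0 := by nlinarith
  refine suf_of_det (X := X) (c' := 2 * c1) (c0 := c0) (M := B) (E := E) (N0 := K) (by linarith)
    hK (by linarith) hB1 (fun j h3 h4 => hB j h3 (by omega)) hE hκ h1 h2 (by omega)
    ?_ ?_ ?_ ?_
  · intro r hr1 hr2
    rw [sub_add_cancel] at hr2 ⊢
    have h3 := hLG (b - r) hr2 (by omega)
    have e : ((b - (b - (r : ℤ)) : ℤ) : ℝ) = r := by push_cast; ring
    rw [e] at h3
    have hr0 : (0 : ℝ) < r := by exact_mod_cast (by omega : 0 < r)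
    nlinarith
  · intro r hr1 hr2
    have h3 := hRG (p + r) (by omega) (by omega)
    have e : ((p + (r : ℤ) - p : ℤ) : ℝ) = r := by push_cast; ring
    rw [e] at h3
    have hr0 : (0 : ℝ) < r := by exact_mod_cast (by omega : 0 < r)
    nlinarith
  · intro i j h3 h4 h5 hgood
    have hgd := hgood.good462
    obtain ⟨h6, h7, h8⟩ := hyp.2 i (j + 1) h3 (by omega) (by omega) hgd
    have hi : i ∉ X := hgd.1.notMem (by omega) hc01
    have hj : j ∉ X := by
      have := hgd.2.notMem (by omega) hc01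
      rwa [add_sub_cancel_right] at this
    have hai := hg i h3 (by omega) hi
    have haj := hg j (by omega) (by omega) hj
    have hrho := H462.rho_le (j + 1 - i).toNat
    have hrho0 := H462.rho_pos (j + 1 - i).toNat
    rw [D462_eq, D462_eq, add_sub_cancel_right] at h7 h8
    rw [D462_eq, add_sub_cancel_right] at h6
    have hWt : 0 < H462.Wt a X i (j + 1) := by
      refine Finset.prod_pos fun t ht => ?_
      rw [Finset.mem_Ico] at ht
      unfold H462.wt
      split_ifs with hx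
      · exact one_pos
      · have := hg t (by omega) (by omega) hx
        linarith
    have hD0 : 0 < |D a i j| := by
      by_contra hcon
      have h9 : |D a i j| = 0 := le_antisymm (not_lt.1 hcon) (abs_nonneg _)
      rw [h9, zero_mul] at h6
      linarith
    refine ⟨abs_pos.1 hD0, ?_, ?_⟩
    · have h9 : |a j| * |D a i (j - 1)| ≤ 2 * |D a i j| :=
        h7.trans (mul_le_mul_of_nonneg_right hrho (abs_nonneg _))
      have h10 : 16 * |D a i (j - 1)| ≤ |a j| * |D a i (j - 1)| :=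
        mul_le_mul_of_nonneg_right haj (abs_nonneg _)
      linarith [abs_nonneg (D a i (j - 1))]
    · have h9 : |a i| * |D a (i + 1) j| ≤ 2 * |D a i j| :=
        h8.trans (mul_le_mul_of_nonneg_right hrho (abs_nonneg _))
      have h10 : 16 * |D a (i + 1) j| ≤ |a i| * |D a (i + 1) j| :=
        mul_le_mul_of_nonneg_right hai (abs_nonneg _)
      linarith [abs_nonneg (D a (i + 1) j)]
  · intro m hm1 hm2 hgood
    rw [sub_add_cancel]
    have hgd := hgood.good462
    rw [sub_add_cancel] at hgd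
    obtain ⟨h6, -, -⟩ := hyp.2 m b hm1 (by omega) le_rfl hgd
    rw [D462_eq] at h6
    obtain ⟨n, hn⟩ : ∃ n : ℕ, (n : ℤ) = b - m := ⟨(b - m).toNat, by omega⟩
    have hn' : (b - m).toNat = n := by omega
    rw [hn']
    have hW := le_Wt (a := a) (X := X) (L := L) hL (u := m) (v := b)
      (by omega) (fun t h3 h4 h5 => by linarith [hg t (by omega) h4 h5])
    rw [hn'] at hW
    set N := ms X m b + ms {t | |a t| < 2 * L} m b with hN
    have hKN : K * N ≤ n := by
      have := hnc m hm1 (by omega)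
      rw [← hN, ← hn] at this
      exact_mod_cast this
    have hΛms : K * (Λ * ms X m b) ≤ n := by
      have h3 := hLG m hm1 (by omega)
      have h4 : ((K * (Λ * ms X m b) : ℕ) : ℝ) ≤ n := by
        push_cast
        have e : ((b - m : ℤ) : ℝ) = n := by rw [← hn]; push_cast; ring
        rw [e] at h3
        have h5 : (0 : ℝ) ≤ K * Λ := by positivity
        calc (K : ℝ) * (Λ * ms X m b) = K * Λ * ms X m b := by ring
          _ ≤ K * Λ * (c1 * n) := mul_le_mul_of_nonneg_left h3 h5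
          _ = (K * Λ * c1) * n := by ring
          _ ≤ 1 * n := mul_le_mul_of_nonneg_right hΛ (by positivity)
          _ = n := one_mul _
      exact_mod_cast h4
    have hW0 := H462.Wt_nonneg (a := a) (X := X) m b
    have hL0 : 0 < L := by linarith
    -- `L^((K-1) n) ≤ Wt^K`
    have h7 : L ^ ((K - 1) * n) ≤ H462.Wt a X m b ^ K := by
      have h8 := pow_le_pow_left₀ (by positivity) hW K
      rw [mul_pow, ← pow_mul, ← pow_mul] at h8
      have h9 : L ^ (N * K) ≤ L ^ n := pow_le_pow_right₀ hL (by rw [mul_comm]; exact hKN)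
      have h10 : L ^ (n * K) = L ^ ((K - 1) * n) * L ^ n := by
        rw [← pow_add]
        congr 1
        obtain ⟨K', rfl⟩ : ∃ K', K = K' + 1 := ⟨K - 1, by omega⟩
        simp only [Nat.add_sub_cancel]
        ring
      have h11 : L ^ ((K - 1) * n) * L ^ n ≤ H462.Wt a X m b ^ K * L ^ n := by
        rw [← h10]
        exact h8.trans (mul_le_mul_of_nonneg_left h9 (by positivity))
      exact le_of_mul_le_mul_right h11 (by positivity)
    have h8 : (E ^ n * B ^ (Λ * ms X m b)) ^ K ≤ H462.Wt a X m b ^ K := by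
      calc (E ^ n * B ^ (Λ * ms X m b)) ^ K = (E ^ K) ^ n * B ^ (K * (Λ * ms X m b)) := by
            rw [mul_pow, ← pow_mul, ← pow_mul, ← pow_mul, mul_comm n K,
              mul_comm (Λ * ms X m b) K]
        _ ≤ (E ^ K) ^ n * B ^ n := by gcongr
        _ = (E ^ K * B) ^ n := by rw [mul_pow]
        _ ≤ (L ^ (K - 1)) ^ n := pow_le_pow_left₀ (by positivity) hEL _
        _ = L ^ ((K - 1) * n) := by rw [pow_mul]
        _ ≤ _ := h7
    have h9 : E ^ n * B ^ (Λ * ms X m b) ≤ H462.Wt a X m b :=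
      le_of_pow_le_pow_left₀ (by omega) hW0 h8
    have h10 : E ^ n * B ^ (Λ * ms X m b) ≤ |D a m (b - 1)| * B ^ (Λ * ms X m b) := h9.trans h6
    exact le_of_mul_le_mul_right h10 (by positivity)

/-! ### the mirror image -/

lemma ms_neg (X : Set ℤ) (u v : ℤ) : ms {i | -i ∈ X} (1 - v) (1 - u) = ms X u v := by
  classical
  unfold ms
  refine Finset.card_bij (fun i _ => -i) ?_ ?_ ?_
  · intro i hi
    rw [Finset.mem_filter, Finset.mem_Ico] at hi ⊢
    exact ⟨⟨by omega, by omega⟩, hi.2⟩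
  · intro i _ j _ h
    simpa using h
  · intro i hi
    rw [Finset.mem_filter, Finset.mem_Ico] at hi
    refine ⟨-i, ?_, by simp⟩
    rw [Finset.mem_filter, Finset.mem_Ico]
    refine ⟨⟨by omega, by omega⟩, ?_⟩
    simpa using hi.2

lemma Wt_neg (a : ℤ → ℝ) (X : Set ℤ) (u v : ℤ) :
    H462.Wt (fun j => a (-j)) {i | -i ∈ X} (1 - v) (1 - u) = H462.Wt a X u v := by
  classical
  unfold H462.Wt
  refine Finset.prod_bij (fun i _ => -i) ?_ ?_ ?_ ?_
  · intro i hi
    rw [Finset.mem_Ico] at hi ⊢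
    omega
  · intro i _ j _ h
    simpa using h
  · intro i hi
    rw [Finset.mem_Ico] at hi
    refine ⟨-i, ?_, by simp⟩
    rw [Finset.mem_Ico]
    omega
  · intro i _
    unfold H462.wt
    by_cases h : -i ∈ X
    · rw [if_pos h, if_pos (show i ∈ {i | -i ∈ X} from h)]
    · rw [if_neg h, if_neg (show i ∉ {i | -i ∈ X} from h)]

lemma D462_neg (a : ℤ → ℝ) (u v : ℤ) :
    H462.D (fun j => a (-j)) (1 - v) (1 - u) = H462.D a u v := by
  rw [D462_eq, D462_eq, D_reflect]
  congr 1 <;> ring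

lemma rg_neg {c0 : ℝ} {u v : ℤ} (h : H462.LG c0 X u v) :
    H462.RG c0 {i | -i ∈ X} (1 - v) (1 - u) := by
  intro r h1 h2
  have h3 := h (1 - r) (by omega) (by omega)
  have e := ms_neg X (1 - r) v
  rw [sub_sub_cancel] at e
  rw [e]
  refine h3.trans_eq ?_
  congr 2
  ring

lemma lg_neg {c0 : ℝ} {u v : ℤ} (h : H462.RG c0 X u v) :
    H462.LG c0 {i | -i ∈ X} (1 - v) (1 - u) := by
  intro r h1 h2
  have h3 := h (1 - r) (by omega) (by omega)
  have e := ms_neg X u (1 - r)
  rw [sub_sub_cancel] at e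
  rw [e]
  refine h3.trans_eq ?_
  congr 2
  ring

lemma neg_neg_set (X : Set ℤ) : {i : ℤ | -i ∈ {i : ℤ | -i ∈ X}} = X := by
  ext i
  simp

lemma conc_neg {B : ℝ} {Λ : ℕ} {u v : ℤ} (h : H462.Conc a X B Λ u v) :
    H462.Conc (fun j => a (-j)) {i | -i ∈ X} B Λ (1 - v) (1 - u) := by
  obtain ⟨h1, h2, h3⟩ := h
  refine ⟨?_, ?_, ?_⟩
  · rw [Wt_neg, D462_neg, ms_neg]; exact h1
  · have e1 : -(1 - u - 1) = u := by ring
    have e2 : 1 - u - 1 = 1 - (u + 1) := by ring
    have e3 : (1 - u - (1 - v)).toNat = (v - u).toNat := by congr 1; ring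
    rw [e3, D462_neg]
    simp only [e1]
    rw [e2, D462_neg]
    exact h3
  · have e1 : -(1 - v) = v - 1 := by ring
    have e2 : 1 - v + 1 = 1 - (v - 1) := by ring
    have e3 : (1 - u - (1 - v)).toNat = (v - u).toNat := by congr 1; ring
    rw [e3, D462_neg]
    simp only [e1]
    rw [e2, D462_neg]
    exact h2

lemma hyp_neg {B c0 : ℝ} {Λ : ℕ} {u v : ℤ} (h : H462.Hyp a X B Λ c0 u v) :
    H462.Hyp (fun j => a (-j)) {i | -i ∈ X} B Λ c0 (1 - v) (1 - u) := by
  refine ⟨⟨rg_neg h.1.2, lg_neg h.1.1⟩, fun u' v' h1 h2 h3 hg => ?_⟩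
  have hg' : H462.Good c0 X (1 - v') (1 - u') := by
    have h4 := rg_neg hg.2
    have h5 := lg_neg hg.1
    rw [neg_neg_set] at h4 h5
    exact ⟨h4, h5⟩
  have h4 := conc_neg (h.2 (1 - v') (1 - u') (by omega) (by omega) (by omega) hg')
  rw [sub_sub_cancel, sub_sub_cancel] at h4
  exact h4

/-- **[DET-2], right window** `[p, b)`, moving end `p - 1`. -/
theorem pre_of_hyp {B L E κ c0 c1 : ℝ} {Λ K : ℕ} {p b : ℤ} (hyp : H462.Hyp a X B Λ c0 p b)
    (hpb : p < b) (hc01 : c0 < 1) (hK : 2 ≤ K)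
    (hg : ∀ t, p ≤ t → t < b → t ∉ X → 16 ≤ |a t|)
    (hB : ∀ t, p ≤ t → t < b → |a t| + 1 ≤ B) (hB1 : 1 ≤ B)
    (hc1 : 0 < c1) (hcc : 10 * K * c1 < c0) (hRG : H462.RG c1 X p b)
    (hLG : H462.LG (c0 / 2) X p b) (hΛ : K * Λ * c1 ≤ 1)
    (hnc : ∀ j, p < j → j ≤ b → (K * (ms X p j + ms {t | |a t| < 2 * L} p j : ℕ) : ℤ) ≤ j - p)
    (hL : 1 ≤ L) (hE : 1 ≤ E) (hEL : E ^ K * B ≤ L ^ (K - 1)) (hκ : 0 < κ) (h1 : 1 ≤ κ * E)
    (h2 : B ≤ (κ * E) ^ K) :
    Pre a p (b - 1) κ 2 := by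
  have h := suf_of_hyp (a := fun j => a (-j)) (X := {i | -i ∈ X}) (p := 1 - b) (b := 1 - p)
    (hyp_neg hyp) (by omega) hc01 hK (fun t h3 h4 h5 => hg (-t) (by omega) (by omega) h5)
    (fun t h3 h4 => hB (-t) (by omega) (by omega)) hB1 hc1 hcc (lg_neg hRG) (rg_neg hLG) hΛ
    (fun i h3 h4 => ?_) hL hE hEL hκ h1 h2
  · rw [suf_reflect] at h
    have e1 : -(1 - p - 1) = p := by ring
    have e2 : -(1 - b) = b - 1 := by ring
    rwa [e1, e2] at h
  · have h5 := hnc (1 - i) (by omega) (by omega)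
    have e1 := ms_neg X p (1 - i)
    have e2 := ms_neg {t | |a t| < 2 * L} p (1 - i)
    rw [sub_sub_cancel] at e1 e2
    have e3 : {i : ℤ | -i ∈ {t : ℤ | |a t| < 2 * L}} = {t | |a (-t)| < 2 * L} := rfl
    rw [e3] at e2
    rw [e1, e2]
    refine h5.trans_eq ?_
    ring

end Vale.Agent.P108.H504
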