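import Vale.Agent.P108.H504.Grow
import Vale.Agent.P108.H462.Cone2

/-! # DetGrow: composition of helper462's `hyp_of_setting` with `detGrow_of_hyp`. -/

namespace Vale.Agent.P108.H504

open Vale.Agent.P108

/-- helper462's multiplicativity hypotheses hold on every good window of a Setting -/
theorem hypSetting : HypSetting 2000000 := by
  obtain ⟨k0, hk0⟩ := H462.exists_big
  refine ⟨k0, fun k hk s a u w X hS i j hui hij hjw hgood => ?_⟩
  exact H462.hyp_of_setting (hk0 k hk) hS hui (show j + 1 ≤ w by omega)
    (H462.good_of_goodWin hgood)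

/-- **[DetGrow]**, unconditional -/
theorem detGrow : Sk.DetGrow := detGrow_of_hyp (Λ := 2000000) (by norm_num) hypSetting

end Vale.Agent.P108.H504
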