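import Vale.Agent.P108.H504.Grow

/-!
# P108: suffix growth with `κ = k^(-3/4)`, `C = 3` (the form used by the decorrelation)
-/

open Set

namespace Vale.Agent.P108.H504

open P108C

variable {a : ℤ → ℝ} {X : Set ℤ}

lemma kap_mono {k : ℝ} (hk1 : 1 ≤ k) (n : ℕ) :
    2 * (k ^ (-(905 / 1000) : ℝ)) ^ n ≤ 3 * (k ^ (-(3 / 4) : ℝ)) ^ n := by
  have hk0 : 0 < k := lt_of_lt_of_le one_pos hk1
  have h1 : k ^ (-(905 / 1000) : ℝ) ≤ k ^ (-(3 / 4) : ℝ) :=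
    Real.rpow_le_rpow_of_exponent_le hk1 (by norm_num)
  have h2 : (k ^ (-(905 / 1000) : ℝ)) ^ n ≤ (k ^ (-(3 / 4) : ℝ)) ^ n :=
    pow_le_pow_left₀ (Real.rpow_nonneg hk0.le _) h1 n
  have h3 : 0 ≤ (k ^ (-(3 / 4) : ℝ)) ^ n := pow_nonneg (Real.rpow_nonneg hk0.le _) n
  linarith only [h2, h3]

lemma count_200 (x y n : ℕ) (hn : 1 ≤ n) (hx : (x : ℝ) ≤ Sk.c1 * n) (hy : (y : ℝ) < 1 / 20 * n) :
    (200 * (x + y : ℕ) : ℤ) ≤ 11 * n := by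
  have h1 : (200 * (x + y : ℕ) : ℝ) ≤ 11 * n := by
    have hnn : (1 : ℝ) ≤ n := by exact_mod_cast hn
    unfold Sk.c1 Sk.cc at hx
    push_cast
    norm_num at hx
    linarith only [hx, hy, hnn]
  exact_mod_cast h1

/-- **Left window `[p, b)`**, moving end `b`. -/
theorem suf_kap {k s : ℝ} (hk : 2 ^ 400 ≤ k) (hs0 : 0 ≤ s) {Λ : ℕ} (hΛ : Λ ≤ 10 ^ 8) {p b : ℤ}
    (hyp : H462.Hyp a X (9 * k) Λ Sk.c0 p b) (hpb : p < b) (hbd : ∀ t, |a t| ≤ 8 * k)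
    (hcr : ∀ t, p ≤ t → t < b → t ∉ X → k ^ (1 / 100 : ℝ) ≤ |a t|)
    (hX : ∀ r : ℕ, 1 ≤ r → p ≤ b - r → (ms X (b - r) b : ℝ) ≤ Sk.c1 * r)
    (hRG : ∀ r : ℕ, 1 ≤ r → p + r ≤ b → (ms X p (p + r) : ℝ) < Sk.c0 * r)
    (hNC : ∀ r : ℕ, 1 ≤ r → p ≤ b - r →
      (ms {t | |a t| < (1 + s) * k ^ (1 - Sk.ce)} (b - r) b : ℝ) < 1 / 20 * r) :
    Suf a p (b - 1) (k ^ (-(3 / 4) : ℝ)) 3 := by
  have h21 : (1 : ℝ) ≤ 2 ^ 400 := one_le_pow₀ (by norm_num)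
  have hk1 : 1 ≤ k := h21.trans hk
  obtain ⟨n1, n2, n3, n4, n5, n6, n7, n8⟩ := grow_numerics hk hs0
  have hc0 : Sk.c0 < 1 := by unfold Sk.c0; norm_num
  have hc1 : 0 < Sk.c1 := by unfold Sk.c1 Sk.cc; norm_num
  have hcc : 10 * (60 : ℕ) * Sk.c1 ≤ Sk.c0 := by unfold Sk.c1 Sk.cc Sk.c0; norm_num
  have hΛ' : ((200 : ℕ) : ℝ) * Λ * Sk.c1 ≤ ((1 : ℕ) : ℝ) := by
    have : (Λ : ℝ) ≤ 10 ^ 8 := by exact_mod_cast hΛ
    unfold Sk.c1 Sk.cc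
    push_cast
    linarith only [this]
  set L := (1 + s) * k ^ (1 - Sk.ce) / 2 with hL
  have e2L : 2 * L = (1 + s) * k ^ (1 - Sk.ce) := by rw [hL]; ring
  have hsuf : Suf a p (b - 1) (k ^ (-(905 / 1000) : ℝ)) 2 := by
    refine suf_of_hyp' (B := 9 * k) (L := L) (E := k ^ (93 / 100 : ℝ)) (c0 := Sk.c0)
      (c1 := Sk.c1) (Λ := Λ) (K := 200) (Ka := 11) (Kb := 1) (N0 := 60) hyp hpb hc0
      (by norm_num) (by norm_num) (by norm_num) (fun t h1 h2 h3 => n1.trans (hcr t h1 h2 h3))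
      (fun t _ _ => by linarith only [hbd t, hk1]) (by linarith only [hk1]) hc1 hcc hX hRG hΛ'
      (fun t ht1 ht2 => ?_) n2 n3 n4 n5 n6 n7
    obtain ⟨n, hn⟩ : ∃ n : ℕ, (n : ℤ) = b - t := ⟨(b - t).toNat, by omega⟩
    have h1 := hX n (by omega) (by omega)
    have h2 := hNC n (by omega) (by omega)
    have e : b - (n : ℤ) = t := by omega
    rw [e] at h1 h2
    rw [e2L, ← hn]
    exact count_200 _ _ n (by omega) h1 h2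
  refine ⟨hsuf.1, fun m h1 h2 => (hsuf.2 m h1 h2).trans ?_⟩
  exact mul_le_mul_of_nonneg_right (kap_mono hk1 _) (abs_nonneg _)

/-- **Right window `[p, b)`**, moving end `p - 1`. -/
theorem pre_kap {k s : ℝ} (hk : 2 ^ 400 ≤ k) (hs0 : 0 ≤ s) {Λ : ℕ} (hΛ : Λ ≤ 10 ^ 8) {p b : ℤ}
    (hyp : H462.Hyp a X (9 * k) Λ Sk.c0 p b) (hpb : p < b) (hbd : ∀ t, |a t| ≤ 8 * k)
    (hcr : ∀ t, p ≤ t → t < b → t ∉ X → k ^ (1 / 100 : ℝ) ≤ |a t|)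
    (hX : ∀ r : ℕ, 1 ≤ r → p + r ≤ b → (ms X p (p + r) : ℝ) ≤ Sk.c1 * r)
    (hLG : ∀ r : ℕ, 1 ≤ r → p ≤ b - r → (ms X (b - r) b : ℝ) < Sk.c0 * r)
    (hNC : ∀ r : ℕ, 1 ≤ r → p + r ≤ b →
      (ms {t | |a t| < (1 + s) * k ^ (1 - Sk.ce)} p (p + r) : ℝ) < 1 / 20 * r) :
    Pre a p (b - 1) (k ^ (-(3 / 4) : ℝ)) 3 := by
  have h21 : (1 : ℝ) ≤ 2 ^ 400 := one_le_pow₀ (by norm_num)
  have hk1 : 1 ≤ k := h21.trans hk
  obtain ⟨n1, n2, n3, n4, n5, n6, n7, n8⟩ := grow_numerics hk hs0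
  have hc0 : Sk.c0 < 1 := by unfold Sk.c0; norm_num
  have hc1 : 0 < Sk.c1 := by unfold Sk.c1 Sk.cc; norm_num
  have hcc : 10 * (60 : ℕ) * Sk.c1 ≤ Sk.c0 := by unfold Sk.c1 Sk.cc Sk.c0; norm_num
  have hΛ' : ((200 : ℕ) : ℝ) * Λ * Sk.c1 ≤ ((1 : ℕ) : ℝ) := by
    have : (Λ : ℝ) ≤ 10 ^ 8 := by exact_mod_cast hΛ
    unfold Sk.c1 Sk.cc
    push_cast
    linarith only [this]
  set L := (1 + s) * k ^ (1 - Sk.ce) / 2 with hL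
  have e2L : 2 * L = (1 + s) * k ^ (1 - Sk.ce) := by rw [hL]; ring
  have hpre : Pre a p (b - 1) (k ^ (-(905 / 1000) : ℝ)) 2 := by
    refine pre_of_hyp' (B := 9 * k) (L := L) (E := k ^ (93 / 100 : ℝ)) (c0 := Sk.c0)
      (c1 := Sk.c1) (Λ := Λ) (K := 200) (Ka := 11) (Kb := 1) (N0 := 60) hyp hpb hc0
      (by norm_num) (by norm_num) (by norm_num) (fun t h1 h2 h3 => n1.trans (hcr t h1 h2 h3))
      (fun t _ _ => by linarith only [hbd t, hk1]) (by linarith only [hk1]) hc1 hcc hX hLG hΛ'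
      (fun t ht1 ht2 => ?_) n2 n3 n4 n5 n6 n7
    obtain ⟨n, hn⟩ : ∃ n : ℕ, (n : ℤ) = t - p := ⟨(t - p).toNat, by omega⟩
    have h1 := hX n (by omega) (by omega)
    have h2 := hNC n (by omega) (by omega)
    have e : p + (n : ℤ) = t := by omega
    rw [e] at h1 h2
    rw [e2L, ← hn]
    exact count_200 _ _ n (by omega) h1 h2
  refine ⟨hpre.1, fun m h1 h2 => (hpre.2 m h1 h2).trans ?_⟩
  exact mul_le_mul_of_nonneg_right (kap_mono hk1 _) (abs_nonneg _)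

end Vale.Agent.P108.H504
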